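import Mathlib

namespace Vale.Agent.P052

open Finset

abbrev F2 := ZMod 2

abbrev Co (X : Type) := List X → F2

variable {X Y : Type}

lemma F2_add_self (a : F2) : a + a = 0 := CharTwo.add_self_eq_zero a

lemma F2_cases (a : F2) : a = 0 ∨ a = 1 := by revert a; decide

/-- Coboundary of a cochain on ordered simplices. -/
def cob : Co X → Co X
  | _, [] => 0
  | u, x :: l => u l + cob (fun m => u (x :: m)) l

lemma cob_add (u v : Co X) (l : List X) : cob (fun m => u m + v m) l = cob u l + cob v l := by
  induction l generalizing u v with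
  | nil => simp [cob]
  | cons x l ih => simp only [cob, ih]; ring

lemma cob_mul (c : F2) (u : Co X) (l : List X) : cob (fun m => c * u m) l = c * cob u l := by
  induction l generalizing u with
  | nil => simp [cob]
  | cons x l ih => simp only [cob, ih]; ring

lemma cob_congr {u v : Co X} {l : List X} (h : ∀ m, m.Sublist l → u m = v m) :
    cob u l = cob v l := by
  induction l generalizing u v with
  | nil => simp [cob]
  | cons x l ih =>
    simp only [cob]
    rw [h l (List.sublist_cons_self x l), ih fun m hm => h _ (hm.cons_cons x)]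

lemma cob_map (f : X → Y) (u : Co Y) (l : List X) :
    cob u (l.map f) = cob (fun m => u (m.map f)) l := by
  induction l generalizing u with
  | nil => simp [cob]
  | cons x l ih => simp only [List.map_cons, cob, ih]

lemma cob_cob (u : Co X) (l : List X) : cob (cob u) l = 0 := by
  induction l generalizing u with
  | nil => simp [cob]
  | cons x l ih =>
    simp only [cob]
    rw [cob_add, ih, add_zero, F2_add_self]

/-- The (dual) prism operator. -/
def prism (f g : X → Y) : Co Y → Co X
  | _, [] => 0
  | u, x :: l => u (f x :: g x :: l.map g) + prism f g (fun m => u (f x :: m)) l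

lemma prism_add (f g : X → Y) (u v : Co Y) (l : List X) :
    prism f g (fun m => u m + v m) l = prism f g u l + prism f g v l := by
  induction l generalizing u v with
  | nil => simp [prism]
  | cons x l ih => simp only [prism, ih]; ring

lemma prism_cob (f g : X → Y) (u : Co Y) (l : List X) :
    prism f g (cob u) l = u (l.map f) + u (l.map g) + cob (prism f g u) l := by
  induction l generalizing u with
  | nil => simp [prism, cob, F2_add_self]
  | cons x l ih =>
    simp only [prism, cob, List.map_cons]
    rw [prism_add, ih, cob_add, cob_map]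
    have := F2_add_self (u (f x :: l.map g))
    linear_combination this

lemma prism_zero (f g : X → Y) (u : Co Y) (l : List X)
    (h : ∀ m : List Y, m.length = l.length + 1 → (∀ y ∈ m, ∃ x ∈ l, y = f x ∨ y = g x) →
      u m = 0) : prism f g u l = 0 := by
  induction l generalizing u with
  | nil => simp [prism]
  | cons x l ih =>
    simp only [prism]
    rw [h, ih, add_zero]
    · intro m hm hy
      refine h _ (by simp [hm]) ?_
      intro y hy'
      rcases List.mem_cons.1 hy' with rfl | hy'
      · exact ⟨x, by simp, Or.inl rfl⟩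
      · obtain ⟨z, hz, k⟩ := hy y hy'
        exact ⟨z, by simp [hz], k⟩
    · simp
    · intro y hy
      simp only [List.mem_cons, List.mem_map] at hy
      rcases hy with rfl | rfl | ⟨z, hz, rfl⟩
      · exact ⟨x, by simp, Or.inl rfl⟩
      · exact ⟨x, by simp, Or.inr rfl⟩
      · exact ⟨z, by simp [hz], Or.inr rfl⟩

/-- An additive functional supported on good lists of length `k`. -/
structure Supp (good : List X → Prop) (k : ℕ) (H : Co X → F2) : Prop where
  add : ∀ u v, H (fun l => u l + v l) = H u + H v
  zero : ∀ u : Co X, (∀ l, l.length = k → good l → u l = 0) → H u = 0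

lemma Supp.congr {good : List X → Prop} {k : ℕ} {H : Co X → F2} (h : Supp good k H)
    {u v : Co X} (huv : ∀ l, l.length = k → good l → u l = v l) : H u = H v := by
  have := h.zero (fun l => u l + v l) fun l h1 h2 => by rw [huv l h1 h2, F2_add_self]
  rw [h.add] at this
  have k := F2_add_self (H v)
  linear_combination this - k

lemma Supp.sum {good : List X → Prop} {k : ℕ} {H : Co X → F2} (h : Supp good k H) {ι : Type}
    (s : Finset ι) (u : ι → Co X) : H (fun l => ∑ i ∈ s, u i l) = ∑ i ∈ s, H (u i) := by
  classical
  induction s using Finset.induction_on with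
  | empty => simpa using h.zero _ fun _ _ _ => rfl
  | insert i s hi ih => simp only [Finset.sum_insert hi]; rw [h.add, ih]

/-- Chains of hemispheres. -/
def Hm (a : X → X) (good : List X → Prop) : ℕ → (Co X → F2) → Prop
  | 0, H => Supp good 1 H ∧ ∀ u, H (cob u) = u []
  | j + 1, H' => Supp good (j + 2) H' ∧ ∃ H, Hm a good j H ∧
      ∀ u, H' (cob u) = H u + H fun l => u (l.map a)

lemma Hm.supp {a : X → X} {good : List X → Prop} {n : ℕ} {H : Co X → F2} (h : Hm a good n H) :
    Supp good (n + 1) H := by
  cases n <;> exact h.1

/-- The fundamental cycle. -/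
def cyc (a : X → X) (H : Co X → F2) : Co X → F2 := fun u => H u + H fun l => u (l.map a)

lemma Hm.cyc_cob {a : X → X} (ha : ∀ x, a (a x) = x) {good : List X → Prop} {n : ℕ}
    {H : Co X → F2} (h : Hm a good n H) (u : Co X) : cyc a H (cob u) = 0 := by
  simp only [cyc, cob_map]
  cases n with
  | zero => rw [h.2, h.2]; simp [F2_add_self]
  | succ n =>
    obtain ⟨-, H0, -, k⟩ := h
    rw [k, k]
    have : (fun l : List X => u ((l.map a).map a)) = u := by
      funext l; simp [Function.comp_def, ha]
    rw [this]
    have h1 := F2_add_self (H0 u)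
    have h2 := F2_add_self (H0 fun l => u (l.map a))
    linear_combination h1 + h2

lemma Hm.cyc_supp {a : X → X} {good : List X → Prop} (hg : ∀ l, good l → good (l.map a)) {n : ℕ}
    {H : Co X → F2} (h : Hm a good n H) : Supp good (n + 1) (cyc a H) where
  add u v := by simp only [cyc, h.supp.add]; ring
  zero u hu := by
    simp only [cyc]
    rw [h.supp.zero u hu, h.supp.zero _ fun l h1 h2 => hu _ (by simpa using h1) (hg l h2), add_zero]

lemma Hm.push {a : X → X} {b : Y → Y} {good : List X → Prop} {good' : List Y → Prop}
    (f : X → Y) (hf : ∀ l, good l → good' (l.map f))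
    (hab : ∀ l, good l → ∀ x ∈ l, f (a x) = b (f x))
    {n : ℕ} {H : Co X → F2} (h : Hm a good n H) :
    Hm b good' n fun u => H fun l => u (l.map f) := by
  have sp : ∀ {k : ℕ} {H : Co X → F2}, Supp good k H →
      Supp good' k fun u => H fun l => u (l.map f) := fun h =>
    ⟨fun u v => h.add _ _, fun u hu => h.zero _ fun l h1 h2 => hu _ (by simpa using h1) (hf l h2)⟩
  induction n generalizing H with
  | zero => exact ⟨sp h.1, fun u => by simp only [cob_map]; rw [h.2]; simp⟩
  | succ n ih =>
    obtain ⟨h1, H0, h2, h3⟩ := h
    refine ⟨sp h1, _, ih h2, fun u => ?_⟩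
    simp only [cob_map]
    rw [h3]
    congr 1
    refine h2.supp.congr fun l _ hl => ?_
    congr 1
    simp only [List.map_map]
    exact List.map_congr_left fun x hx => hab l hl x hx

section fin
variable {V : Type} [DecidableEq V]

/-- The cochain on lists given by a function of the vertex set. -/
def io (W : Finset V → F2) : Co V := fun l => if l.Nodup then W l.toFinset else 0

def dW (W : Finset V → F2) : Finset V → F2 := fun S => ∑ v ∈ S, W (S.erase v)

lemma cob_io (W : Finset V → F2) (l : List V) : cob (io W) l = io (dW W) l := by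
  induction l generalizing W with
  | nil => simp [cob, io, dW]
  | cons x l ih =>
    have e : (fun m => io W (x :: m)) = io fun T => if x ∈ T then 0 else W (insert x T) := by
      funext m
      by_cases h1 : x ∈ m <;> by_cases h2 : m.Nodup <;> simp [io, h1, h2]
    simp only [cob]
    rw [e, ih]
    by_cases h2 : l.Nodup
    · by_cases h1 : x ∈ l
      · simp only [io, h2, if_true, List.nodup_cons, h1, not_true, false_and, if_false, dW]
        rw [Finset.sum_eq_single x]
        · simp [Finset.insert_erase (List.mem_toFinset.2 h1), F2_add_self]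
        · intro v _ hv
          rw [if_pos (Finset.mem_erase.2 ⟨hv.symm, List.mem_toFinset.2 h1⟩)]
        · intro h; exact absurd (List.mem_toFinset.2 h1) h
      · have h1' : x ∉ l.toFinset := fun h => h1 (List.mem_toFinset.1 h)
        simp only [io, h2, if_true, List.nodup_cons, h1, not_false_iff, and_self, dW,
          List.toFinset_cons]
        rw [Finset.sum_insert h1', Finset.erase_insert h1']
        congr 1
        refine Finset.sum_congr rfl fun v hv => ?_
        rw [if_neg fun h => h1' (Finset.mem_of_mem_erase h),
          Finset.erase_insert_of_ne (by rintro rfl; exact h1' hv)]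
    · simp [io, h2]

lemma dW_dW (W : Finset V → F2) (S : Finset V) : dW (dW W) S = 0 := by
  have h := cob_cob (io W) S.toList
  have e : cob (io W) = io (dW W) := funext (cob_io W)
  rw [e, cob_io] at h
  simpa [io, S.nodup_toList] using h

/-- Indicator of a vertex set. -/
def ind (S : Finset V) : Co V := io fun T => if T = S then 1 else 0

lemma ind_ne {S : Finset V} {l : List V} (h : ind S l ≠ 0) : l.Nodup ∧ l.toFinset = S := by
  by_contra hc
  apply h
  simp only [ind, io]
  split_ifs with h1 h2
  · exact absurd ⟨h1, h2⟩ hc
  · rfl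
  · rfl

variable [Fintype V]

lemma cob_ind (S : Finset V) (l : List V) :
    cob (ind S) l = ∑ w ∈ Sᶜ, ind (insert w S) l := by
  rw [ind, cob_io]
  simp only [ind, io]
  split_ifs with h
  · simp only [dW]
    generalize l.toFinset = T
    rw [← Finset.sum_subset (Finset.subset_univ T) (f := fun v =>
      if v ∈ T ∧ T.erase v = S then (1 : F2) else 0) (by intro v _ hv; simp [hv]) |>.symm.trans
      (Finset.sum_congr rfl fun v hv => by simp [hv])]
    rw [← Finset.sum_subset (Finset.subset_univ Sᶜ)]
    · refine Finset.sum_congr rfl fun v hv => if_congr ⟨?_, ?_⟩ rfl rfl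
      · rintro ⟨h1, rfl⟩; exact (Finset.insert_erase h1).symm
      · rintro rfl
        exact ⟨Finset.mem_insert_self _ _, Finset.erase_insert (Finset.mem_compl.1 hv)⟩
    · intro v _ hv
      rw [if_neg]
      rintro ⟨-, rfl⟩
      simp at hv
  · simp

/-- The Borsuk-Ulam theorem at the level of chains. -/
theorem Hm.exists_odd {a : V → V} (ha : ∀ x, a (a x) = x) {good : List V → Prop}
    (hg : ∀ l, good l → ∀ x ∈ l, a x ∉ l) {n : ℕ} {H : Co V → F2} (h : Hm a good n H) :
    ∃ S, cyc a H (ind S) = 1 := by
  have hinj : Function.Injective a := Function.LeftInverse.injective ha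
  have hii : ∀ S : Finset V, (S.image a).image a = S := fun S => by
    rw [Finset.image_image, show a ∘ a = id from funext ha, Finset.image_id]
  let r : Finset V → F2 := fun S =>
    if Fintype.equivFin _ S < Fintype.equivFin _ (S.image a) then 1 else 0
  have hr : ∀ S : Finset V, S.image a ≠ S → r S + r (S.image a) = 1 := by
    intro S hS
    simp only [r, hii]
    have : Fintype.equivFin _ S ≠ Fintype.equivFin _ (S.image a) :=
      fun k => hS ((Fintype.equivFin _).injective k).symm
    rcases lt_or_gt_of_ne this with k | k
    · simp [k, k.not_gt]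
    · simp [k, k.not_gt]
  let W : ℕ → Finset V → F2 := fun j => Nat.rec (fun _ => 1) (fun _ W S => r S * dW W S) j
  have W0 : W 0 = fun _ => 1 := rfl
  have Ws : ∀ j S, W (j + 1) S = r S * dW (W j) S := fun _ _ => rfl
  have dWa : ∀ (U : Finset V → F2) (S : Finset V),
      dW U (S.image a) = dW (fun T => U (T.image a)) S := by
    intro U S
    simp only [dW]
    rw [Finset.sum_image fun x _ y _ k => hinj k]
    exact Finset.sum_congr rfl fun v _ => by rw [Finset.image_erase hinj]
  have key : ∀ j (S : Finset V), S.card = j + 1 → (∀ x ∈ S, a x ∉ S) →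
      W (j + 1) S + W (j + 1) (S.image a) = dW (W j) S := by
    intro j
    have fin : ∀ j (S : Finset V), S.card = j + 1 → (∀ x ∈ S, a x ∉ S) →
        dW (W j) (S.image a) = dW (W j) S →
        W (j + 1) S + W (j + 1) (S.image a) = dW (W j) S := by
      intro j S h1 h2 h3
      obtain ⟨x, hx⟩ : S.Nonempty := Finset.card_pos.1 (by omega)
      rw [Ws, Ws, h3, ← add_mul, hr S fun k => h2 x hx (k ▸ Finset.mem_image_of_mem a hx), one_mul]
    induction j with
    | zero => exact fun S h1 h2 => fin 0 S h1 h2 (by rw [dWa, W0])
    | succ j ih =>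
      intro S h1 h2
      refine fin _ S h1 h2 ?_
      have k1 := dW_dW (W j) S
      rw [dWa]
      have k2 : dW (W (j + 1)) S + dW (fun T => W (j + 1) (T.image a)) S = dW (dW (W j)) S := by
        simp only [dW.eq_1 _ S, ← Finset.sum_add_distrib]
        refine Finset.sum_congr rfl fun v hv => ih _ (by rw [Finset.card_erase_of_mem hv]; omega)
          fun x hx k => h2 x (Finset.mem_of_mem_erase hx) (Finset.mem_of_mem_erase k)
      have k3 := F2_add_self (dW (W (j + 1)) S)
      linear_combination k2 + k1 - k3
  have step : ∀ j (H : Co V → F2), Supp good (j + 1) H →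
      cyc a H (io (W (j + 1))) = H (cob (io (W j))) := by
    intro j H hH
    rw [cyc, ← hH.add]
    refine hH.congr fun l h1 h2 => ?_
    rw [cob_io]
    simp only [io, List.nodup_map_iff hinj]
    split_ifs with h3
    · rw [← key j _ (by rw [List.toFinset_card_of_nodup h3, h1])
        (fun x hx k => hg l h2 x (List.mem_toFinset.1 hx) (List.mem_toFinset.1 k))]
      have : (l.map a).toFinset = l.toFinset.image a := by ext x; simp
      rw [this]
    · simp
  have main : ∀ j (H : Co V → F2), Hm a good j H → cyc a H (io (W (j + 1))) = 1 := by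
    intro j
    induction j with
    | zero => intro H hH; rw [step 0 H hH.supp, hH.2]; simp [io, W0]
    | succ j ih =>
      intro H hH
      rw [step _ H hH.supp]
      obtain ⟨-, H0, h2, h3⟩ := hH
      rw [h3]; exact ih H0 h2
  by_contra hc
  push Not at hc
  have h1 := main n H h
  have e : io (W (n + 1)) = fun l => ∑ S ∈ univ.filter (fun S => W (n + 1) S = 1), ind S l := by
    funext l
    simp only [ind, io]
    split_ifs
    · rw [Finset.sum_ite_eq]
      rcases F2_cases (W (n + 1) l.toFinset) with k | k <;> simp [k]
    · simp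
  rw [e] at h1
  simp only [cyc, h.supp.sum, ← Finset.sum_add_distrib] at h1
  exact zero_ne_one ((Finset.sum_eq_zero fun S _ =>
    (F2_cases _).resolve_right (hc S)).symm.trans h1)

/-- A nonempty family of realized top faces in which every ridge lies in another face. -/
theorem Hm.pseudo {a : V → V} (ha : ∀ x, a (a x) = x) {good : List V → Prop}
    (hg : ∀ l, good l → ∀ x ∈ l, a x ∉ l) (hg' : ∀ l, good l → good (l.map a))
    {n : ℕ} {H : Co V → F2} (h : Hm a good n H) :
    ∃ D : Finset V → Prop, (∃ S, D S) ∧
      (∀ S, D S → S.card = n + 1 ∧ ∃ l, good l ∧ l.toFinset = S) ∧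
      ∀ S, D S → ∀ v ∈ S, ∃ w ∉ S, D (insert w (S.erase v)) := by
  have hs := h.cyc_supp hg'
  refine ⟨fun S => cyc a H (ind S) = 1, h.exists_odd ha hg, fun S hS => ?_, fun S hS v hv => ?_⟩
  · by_contra hc
    refine zero_ne_one ((hs.zero _ ?_).symm.trans hS)
    intro l h1 h2
    by_contra h3
    obtain ⟨h4, rfl⟩ := ind_ne h3
    exact hc ⟨by rw [List.toFinset_card_of_nodup h4, h1], l, h2, rfl⟩
  · have h1 := h.cyc_cob ha (ind (S.erase v))
    have e : cob (ind (S.erase v)) = fun l => ∑ w ∈ (S.erase v)ᶜ, ind (insert w (S.erase v)) l :=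
      funext (cob_ind _)
    rw [e, hs.sum] at h1
    by_contra hc
    push Not at hc
    rw [Finset.sum_eq_single v, Finset.insert_erase hv, hS] at h1
    · exact one_ne_zero h1
    · intro w hw hwv
      exact (F2_cases _).resolve_right (hc w fun k =>
        Finset.mem_compl.1 hw (Finset.mem_erase.2 ⟨hwv, k⟩))
    · simp

end fin

end Vale.Agent.P052
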