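import Vale.Agent.P052.Chain

namespace Vale.Agent.P052

open Finset

/-- The antipodal map on signed colours. -/
def fl {κ : Type} (v : κ × F2) : κ × F2 := (v.1, v.2 + 1)

lemma fl_fl {κ : Type} (v : κ × F2) : fl (fl v) = v := by
  simp [fl, add_assoc, F2_add_self]

/-- Lists without an antipodal pair. -/
def AF {κ : Type} (l : List (κ × F2)) : Prop := ∀ x ∈ l, fl x ∉ l

lemma AF.map {κ : Type} {l : List (κ × F2)} (h : AF l) : AF (l.map fl) := by
  intro x hx' hy'
  obtain ⟨x, hx, rfl⟩ := List.mem_map.1 hx'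
  obtain ⟨y, hy, k⟩ := List.mem_map.1 hy'
  have : y = fl x := by rw [← fl_fl y, k, fl_fl]
  exact h x hx (this ▸ hy)

lemma AF.inj {κ : Type} {l : List (κ × F2)} (h : AF l) {x y : κ × F2} (hx : x ∈ l) (hy : y ∈ l)
    (k : x.1 = y.1) : x = y := by
  by_contra hne
  refine h x hx ?_
  have : fl x = y := by
    refine Prod.ext k ?_
    have : x.2 ≠ y.2 := fun k' => hne (Prod.ext k k')
    simp only [fl]
    revert this; generalize x.2 = s; generalize y.2 = t; revert s t; decide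
  rwa [this]

lemma tucker {n : ℕ} {H : Co (Fin n × F2) → F2} (h : Hm fl AF n H) : False := by
  obtain ⟨D, ⟨S, hS⟩, h1, -⟩ := h.pseudo fl_fl (fun _ h => h) (fun _ h => AF.map h)
  obtain ⟨h2, l, h3, rfl⟩ := h1 S hS
  have := Finset.card_le_card_of_injOn (s := l.toFinset) (t := univ) Prod.fst (by simp)
    (fun x hx y hy k => AF.inj h3 (List.mem_toFinset.1 hx) (List.mem_toFinset.1 hy) k)
  simp only [card_univ, Fintype.card_fin] at this
  omega

variable {κ : Type} [Fintype κ] [DecidableEq κ] (e : κ → κ → F2)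

def Clique (l : List (κ × F2)) : Prop := ∀ v ∈ l, ∀ w ∈ l, v.2 + w.2 = e v.1 w.1

def Coh (A : Finset κ) : Prop := ∃ r : κ → F2, ∀ i ∈ A, ∀ j ∈ A, e i j = r i + r j

def tri (i j k : κ) : F2 := e i j + e i k + e j k

def Ico (R : Finset κ) : Prop := (∀ u ∈ R, ∀ v ∈ R, ∑ w ∈ R, tri e u v w = 0) ∧
  ∀ a ∈ R, ∀ b ∈ R, ∀ c ∈ R, ∀ d ∈ R, a ≠ b → a ≠ c → a ≠ d → b ≠ c → b ≠ d → c ≠ d →
    ¬ (tri e a b c = tri e a b d ∧ tri e a b c = tri e a c d)

variable {e}

omit [Fintype κ] [DecidableEq κ] in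
lemma Coh.tri {A : Finset κ} (h : Coh e A) {i j k : κ} (hi : i ∈ A) (hj : j ∈ A) (hk : k ∈ A) :
    tri e i j k = 0 := by
  obtain ⟨r, h⟩ := h
  rw [P052.tri, h i hi j hj, h i hi k hk, h j hj k hk]
  generalize r i = x; generalize r j = y; generalize r k = z; revert x y z; decide

omit [Fintype κ] [DecidableEq κ] in
lemma coh_of {A : Finset κ} (a : κ) (h : ∀ i ∈ A, ∀ j ∈ A, tri e a i j = 0) : Coh e A := by
  refine ⟨e a, fun i hi j hj => ?_⟩
  have := h i hi j hj
  rw [tri] at this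
  revert this
  generalize e a i = x; generalize e a j = y; generalize e i j = z; revert x y z; decide

variable (h0 : ∀ i, e i i = 0) (hs : ∀ i j, e i j = e j i)
include h0 hs

omit [Fintype κ] [DecidableEq κ] h0 in
lemma tri_c (a b c : κ) : tri e a b c = tri e a c b := by rw [tri, tri, hs b c]; ring

omit [Fintype κ] [DecidableEq κ] h0 in
lemma tri_c' (a b c : κ) : tri e a b c = tri e b a c := by rw [tri, tri, hs a b]; ring

omit [Fintype κ] [DecidableEq κ] hs in
lemma tri_1 (a b : κ) : tri e a a b = 0 := by simp [tri, h0, F2_add_self]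

omit [Fintype κ] [DecidableEq κ] hs in
lemma tri_2 (a b : κ) : tri e a b b = 0 := by simp [tri, h0, F2_add_self]

omit [Fintype κ] [DecidableEq κ] in
lemma tri_3 (a b : κ) : tri e a b a = 0 := by rw [tri_c hs, tri_1 h0]

omit [Fintype κ] [DecidableEq κ] h0 hs in
lemma tri_4 (a b c d : κ) : tri e b c d = tri e a b c + tri e a b d + tri e a c d := by
  simp only [tri]
  linear_combination -(F2_add_self (e a b)) - F2_add_self (e a c) - F2_add_self (e a d)

omit [Fintype κ] in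
lemma coh5 {a b c d f : κ} (h1 : tri e a b c = 0) (h2 : tri e a b d = 0) (h3 : tri e a c d = 0)
    (h4 : tri e a b f = 0) (h5 : tri e a c f = 0) (h6 : tri e a d f = 0) :
    Coh e {a, b, c, d, f} := by
  refine coh_of a fun i hi j hj => ?_
  simp only [mem_insert, mem_singleton] at hi hj
  rcases hi with rfl | rfl | rfl | rfl | rfl <;> rcases hj with rfl | rfl | rfl | rfl | rfl <;>
    first
    | assumption
    | exact tri_1 h0 _ _
    | exact tri_2 h0 _ _
    | exact tri_3 h0 hs _ _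
    | (rw [tri_c hs]; assumption)

omit [Fintype κ] in
lemma coh4 {a b c d : κ} (h1 : tri e a b c = 0) (h2 : tri e a b d = 0) (h3 : tri e a c d = 0) :
    Coh e {a, b, c, d} := by
  simpa using coh5 h0 hs h1 h2 h3 h2 h3 (tri_2 h0 _ _)

omit [Fintype κ] in
lemma coh3 {a b c : κ} (h1 : tri e a b c = 0) : Coh e {a, b, c} := by
  simpa using coh4 h0 hs h1 h1 (tri_2 h0 _ _)

omit [Fintype κ] in
lemma coh2 {A : Finset κ} (h : A.card ≤ 2) : Coh e A := by
  rcases A.eq_empty_or_nonempty with rfl | ⟨a, ha⟩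
  · exact ⟨0, by simp⟩
  refine coh_of a fun i hi j hj => ?_
  by_cases k1 : a = i
  · rw [k1, tri_1 h0]
  by_cases k2 : a = j
  · rw [k2, tri_3 h0 hs]
  by_cases k3 : i = j
  · rw [k3, tri_2 h0]
  exact absurd (Finset.two_lt_card.2 ⟨a, ha, i, hi, j, hj, k1, k2, k3⟩) (by omega)

omit hs [Fintype κ] [DecidableEq κ] in
lemma Clique.af {l : List (κ × F2)} (h : Clique e l) : AF l := by
  intro x hx hy
  have := h x hx _ hy
  simp only [fl, h0, ← add_assoc, F2_add_self] at this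
  simp at this

omit h0 hs [Fintype κ] [DecidableEq κ] in
lemma no_cover {good : List (κ × F2) → Prop} {R : Finset κ}
    (hg : ∀ l, good l → Clique e l ∧ ∀ v ∈ l, v.1 ∈ R) {n : ℕ} {H : Co (κ × F2) → F2}
    (h : Hm fl good (n + 1) H) (A : Fin (n + 1) → Finset κ) (hA : ∀ k, Coh e (A k))
    (hc : ∀ i ∈ R, ∃ k, i ∈ A k) : False := by
  choose r hr using hA
  choose! b hb using hc
  refine tucker (h.push (fun v => (b v.1, v.2 + r (b v.1) v.1)) ?_ ?_)
  · intro l hl x hx' hy'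
    obtain ⟨x, hx, rfl⟩ := List.mem_map.1 hx'
    obtain ⟨y, hy, k⟩ := List.mem_map.1 hy'
    simp only [fl, Prod.mk.injEq] at k
    have k1 := (hg l hl).1 x hx y hy
    rw [hr (b x.1) _ (hb _ ((hg l hl).2 x hx)) _ (k.1 ▸ hb _ ((hg l hl).2 y hy))] at k1
    have k2 := k.2
    rw [k.1] at k2
    revert k1 k2
    generalize x.2 = s; generalize y.2 = t; generalize r (b x.1) x.1 = u
    generalize r (b x.1) y.1 = v; revert s t u v; decide
  · intro l _ x _
    simp only [fl]; congr 1; ring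

omit hs in
lemma pseudo_col {good : List (κ × F2) → Prop} (hg : ∀ l, good l → Clique e l)
    (hg' : ∀ l, good l → good (l.map fl)) {n : ℕ} {H : Co (κ × F2) → F2} (h : Hm fl good n H)
    (hn : 0 < n) : ∃ D : Finset κ → Prop, (∃ Q, D Q) ∧
      (∀ Q, D Q → Q.card = n + 1 ∧ Coh e Q ∧ ∃ l, good l ∧ l.toFinset.image Prod.fst = Q) ∧
      ∀ Q, D Q → ∀ q ∈ Q, ∃ a ∉ Q, D (insert a (Q.erase q)) := by
  obtain ⟨D, ⟨S0, hS0⟩, h1, h2⟩ := h.pseudo fl_fl (fun l hl => (hg l hl).af h0) hg'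
  have hinj : ∀ S, D S → Set.InjOn Prod.fst (S : Set (κ × F2)) := by
    intro S hS
    obtain ⟨-, l, h3, rfl⟩ := h1 S hS
    exact fun x hx y hy k => ((hg l h3).af h0).inj (List.mem_toFinset.1 hx)
      (List.mem_toFinset.1 hy) k
  have hcl : ∀ S, D S → ∀ v ∈ S, ∀ w ∈ S, v.2 + w.2 = e v.1 w.1 := by
    intro S hS
    obtain ⟨-, l, h3, rfl⟩ := h1 S hS
    exact fun x hx y hy => hg l h3 x (List.mem_toFinset.1 hx) y (List.mem_toFinset.1 hy)
  refine ⟨fun Q => ∃ S, D S ∧ S.image Prod.fst = Q, ⟨_, S0, hS0, rfl⟩, ?_, ?_⟩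
  · rintro Q ⟨S, hS, rfl⟩
    refine ⟨by rw [Finset.card_image_of_injOn (hinj S hS), (h1 S hS).1], ?_, ?_⟩
    · have : ∀ i ∈ S.image Prod.fst, ∃ s, (i, s) ∈ S := by
        intro i hi
        obtain ⟨v, hv, rfl⟩ := Finset.mem_image.1 hi
        exact ⟨v.2, hv⟩
      choose! r hr using this
      exact ⟨r, fun i hi j hj => (hcl S hS _ (hr i hi) _ (hr j hj)).symm⟩
    · obtain ⟨-, l, h3, rfl⟩ := h1 S hS
      exact ⟨l, h3, rfl⟩
  · rintro Q ⟨S, hS, rfl⟩ q hq
    obtain ⟨v, hv, rfl⟩ := Finset.mem_image.1 hq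
    obtain ⟨w, hw, h3⟩ := h2 S hS v hv
    refine ⟨w.1, fun k => ?_, _, h3, ?_⟩
    · obtain ⟨u, hu, k⟩ := Finset.mem_image.1 k
      obtain ⟨z, hz⟩ : (S.erase v).Nonempty :=
        Finset.card_pos.1 (by rw [Finset.card_erase_of_mem hv, (h1 S hS).1]; omega)
      have k1 := hcl S hS u hu z (Finset.mem_of_mem_erase hz)
      have k2 := hcl _ h3 w (Finset.mem_insert_self _ _) z (Finset.mem_insert_of_mem hz)
      rw [← k, ← k1] at k2
      exact hw ((Prod.ext k (add_right_cancel k2).symm : u = w) ▸ hu)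
    · rw [Finset.image_insert]
      congr 1
      ext i
      simp only [Finset.mem_image, Finset.mem_erase]
      constructor
      · rintro ⟨u, ⟨k1, k2⟩, rfl⟩
        exact ⟨fun k => k1 (hinj S hS k2 hv k), u, k2, rfl⟩
      · rintro ⟨k1, u, k2, rfl⟩
        exact ⟨u, ⟨by rintro rfl; exact k1 rfl, k2⟩, rfl⟩

/-- The icosahedral two-graph on six points. -/
def E0 : Fin 6 → Fin 6 → F2 :=
  ![![0, 0, 0, 0, 0, 0], ![0, 0, 0, 0, 1, 1], ![0, 0, 0, 1, 0, 1], ![0, 0, 1, 0, 1, 0],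
    ![0, 1, 0, 1, 0, 0], ![0, 1, 1, 0, 0, 0]]

omit h0 hs in
set_option synthInstance.maxSize 2000 in
lemma ico_E0 : Ico E0 univ := by
  unfold Ico tri
  simp only [mem_univ, forall_const]
  constructor <;> decide +kernel

omit [Fintype κ] [DecidableEq κ] in
lemma ico_vals {a b c x y z : κ} (t0 : tri e a b c = 0) (t1 : tri e a b x = 0)
    (t2 : tri e a c y = 0) (t4 : tri e a c x = 1) (t5 : tri e a b y = 1) (t6 : tri e a b z = 1)
    (t7 : tri e a c z = 1) (t10 : tri e a x y = 1) (t11 : tri e a x z = 0)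
    (t12 : tri e a y z = 0) (i j : Fin 6) :
    tri e a (![a, b, c, x, y, z] i) (![a, b, c, x, y, z] j) = E0 i j := by
  have s0 := (tri_c hs _ _ _).symm.trans t0
  have s1 := (tri_c hs _ _ _).symm.trans t1
  have s2 := (tri_c hs _ _ _).symm.trans t2
  have s4 := (tri_c hs _ _ _).symm.trans t4
  have s5 := (tri_c hs _ _ _).symm.trans t5
  have s6 := (tri_c hs _ _ _).symm.trans t6
  have s7 := (tri_c hs _ _ _).symm.trans t7
  have s10 := (tri_c hs _ _ _).symm.trans t10
  have s11 := (tri_c hs _ _ _).symm.trans t11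
  have s12 := (tri_c hs _ _ _).symm.trans t12
  have u1 := tri_1 h0
  have u2 := tri_2 h0
  have u3 := tri_3 h0 hs
  generalize tri e = T at *
  fin_cases i <;> fin_cases j <;> simp [E0, *]

lemma ico_of {good : List (κ × F2) → Prop} {R : Finset κ} (hR : R.card = 6)
    (hg : ∀ l, good l → Clique e l ∧ ∀ v ∈ l, v.1 ∈ R)
    (hg' : ∀ l, good l → good (l.map fl)) {H : Co (κ × F2) → F2} (h : Hm fl good 2 H) :
    Ico e R := by
  have np : ∀ A B, Coh e A → Coh e B → (∀ i ∈ R, i ∈ A ∨ i ∈ B) → False := by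
    intro A B hA hB hc
    refine no_cover hg h ![A, B] (fun k => by fin_cases k <;> assumption) fun i hi => ?_
    rcases hc i hi with k | k
    exacts [⟨0, k⟩, ⟨1, k⟩]
  have np4 : ∀ a ∈ R, ∀ b ∈ R, ∀ c ∈ R, ∀ d ∈ R, a ≠ b → a ≠ c → a ≠ d → b ≠ c → b ≠ d →
      c ≠ d → tri e a b c = 0 → tri e a b d = 0 → tri e a c d = 1 := by
    intro a ha b hb c hc d hd k1 k2 k3 k4 k5 k6 t1 t2
    refine (F2_cases _).resolve_left fun t3 => np _ (R \ {a, b, c, d}) (coh4 h0 hs t1 t2 t3)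
      (coh2 h0 hs ?_) fun i hi => by by_cases k : i ∈ ({a, b, c, d} : Finset κ) <;> simp [k, hi]
    rw [Finset.card_sdiff_of_subset (by intro x; simp only [mem_insert, mem_singleton]; grind),
      Finset.card_eq_four.2 ⟨a, b, c, d, k1, k2, k3, k4, k5, k6, rfl⟩, hR]
  obtain ⟨D, ⟨Q, hQ⟩, h1, h2⟩ := pseudo_col h0 (fun l hl => (hg l hl).1) hg' h (by norm_num)
  have hD : ∀ Q, D Q → Q ⊆ R := by
    intro Q hQ i hi
    obtain ⟨-, -, l, k, rfl⟩ := h1 Q hQ
    obtain ⟨v, hv, rfl⟩ := Finset.mem_image.1 hi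
    exact (hg l k).2 v (List.mem_toFinset.1 hv)
  obtain ⟨a, b, c, ab, ac, bc, rfl⟩ := Finset.card_eq_three.1 (h1 Q hQ).1
  obtain ⟨x, hx, dx⟩ := h2 _ hQ c (by simp)
  obtain ⟨y, hy, dy⟩ := h2 _ hQ b (by simp)
  obtain ⟨z, hz, dz⟩ := h2 _ hQ a (by simp)
  simp only [mem_insert, mem_singleton, not_or] at hx hy hz
  have ra : a ∈ R := hD _ hQ (by simp)
  have rb : b ∈ R := hD _ hQ (by simp)
  have rc : c ∈ R := hD _ hQ (by simp)
  have rx : x ∈ R := hD _ dx (by simp)
  have ry : y ∈ R := hD _ dy (by simp)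
  have rz : z ∈ R := hD _ dz (by simp)
  have t0 : tri e a b c = 0 := (h1 _ hQ).2.1.tri (by simp) (by simp) (by simp)
  have t1 : tri e a b x = 0 := (h1 _ dx).2.1.tri (by simp [ac]) (by simp [bc]) (by simp)
  have t2 : tri e a c y = 0 := (h1 _ dy).2.1.tri (by simp [ab]) (by simp [bc.symm]) (by simp)
  have t3 : tri e b c z = 0 := (h1 _ dz).2.1.tri (by simp [ab.symm]) (by simp [ac.symm]) (by simp)
  have t4 : tri e a c x = 1 := np4 a ra b rb c rc x rx ab ac (Ne.symm hx.1) bc (Ne.symm hx.2.1)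
    (Ne.symm hx.2.2) t0 t1
  have t5 : tri e a b y = 1 := np4 a ra c rc b rb y ry ac ab (Ne.symm hy.1) bc.symm
    (Ne.symm hy.2.2) (Ne.symm hy.2.1) (by rw [tri_c hs, t0]) t2
  have t6 : tri e a b z = 1 := by
    rw [tri_c' hs]
    exact np4 b rb c rc a ra z rz bc ab.symm (Ne.symm hz.2.1) ac.symm
      (Ne.symm hz.2.2) (Ne.symm hz.1) (by rw [tri_c hs, tri_c' hs, t0]) t3
  have t7 : tri e a c z = 1 := by
    have := tri_4 (e := e) a b c z
    rw [t3, t0, t6] at this
    revert this; generalize tri e a c z = s; revert s; decide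
  have xy : x ≠ y := by rintro rfl; rw [t1] at t5; exact zero_ne_one t5
  have xz : x ≠ z := by rintro rfl; rw [t1] at t6; exact zero_ne_one t6
  have yz : y ≠ z := by rintro rfl; rw [t2] at t7; exact zero_ne_one t7
  let ρ : Fin 6 → κ := ![a, b, c, x, y, z]
  have hρ : Function.Injective ρ := by
    intro i j
    obtain ⟨x1, x2, x3⟩ := hx
    obtain ⟨y1, y2, y3⟩ := hy
    obtain ⟨z1, z2, z3⟩ := hz
    fin_cases i <;> fin_cases j <;> simp [ρ] <;> first | assumption | exact Ne.symm ‹_›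
  have hRρ : R = univ.image ρ := by
    refine (Finset.eq_of_subset_of_card_le ?_ ?_).symm
    · intro i hi
      obtain ⟨k, -, rfl⟩ := Finset.mem_image.1 hi
      fin_cases k <;> assumption
    · rw [Finset.card_image_of_injective _ hρ, hR]; simp
  have mem : ∀ i ∈ R, i = a ∨ i = b ∨ i = c ∨ i = x ∨ i = y ∨ i = z := by
    intro i hi
    rw [hRρ] at hi
    obtain ⟨k, -, rfl⟩ := Finset.mem_image.1 hi
    fin_cases k <;> simp [ρ]
  have t8 : tri e c y z = 1 := (F2_cases _).resolve_left fun k =>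
    np _ _ (coh3 h0 hs k) (coh3 h0 hs t1) fun i hi => by
      rcases mem i hi with k | k | k | k | k | k <;> simp [k]
  have t9 : tri e b x z = 1 := (F2_cases _).resolve_left fun k =>
    np _ _ (coh3 h0 hs k) (coh3 h0 hs t2) fun i hi => by
      rcases mem i hi with k | k | k | k | k | k <;> simp [k]
  have t10 : tri e a x y = 1 := (F2_cases _).resolve_left fun k =>
    np _ _ (coh3 h0 hs k) (coh3 h0 hs t3) fun i hi => by
      rcases mem i hi with k | k | k | k | k | k <;> simp [k]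
  have t11 : tri e a x z = 0 := by
    have := tri_4 (e := e) a b x z
    rw [t9, t1, t6] at this
    revert this; generalize tri e a x z = s; revert s; decide
  have t12 : tri e a y z = 0 := by
    have := tri_4 (e := e) a c y z
    rw [t8, t2, t7] at this
    revert this; generalize tri e a y z = s; revert s; decide
  have k1 : ∀ i j, tri e a (ρ i) (ρ j) = E0 i j :=
    ico_vals h0 hs t0 t1 t2 t4 t5 t6 t7 t10 t11 t12
  have k2 : ∀ i j k, tri e (ρ i) (ρ j) (ρ k) = tri E0 i j k := by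
    intro i j k
    rw [tri_4 a, k1, k1, k1, tri]
  rw [hRρ]
  constructor
  · intro u hu v hv
    obtain ⟨u, -, rfl⟩ := Finset.mem_image.1 hu
    obtain ⟨v, -, rfl⟩ := Finset.mem_image.1 hv
    rw [Finset.sum_image fun _ _ _ _ k => hρ k]
    simp only [k2]
    exact ico_E0.1 u (mem_univ _) v (mem_univ _)
  · intro p hp q hq r hr s hs'
    obtain ⟨p, -, rfl⟩ := Finset.mem_image.1 hp
    obtain ⟨q, -, rfl⟩ := Finset.mem_image.1 hq
    obtain ⟨r, -, rfl⟩ := Finset.mem_image.1 hr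
    obtain ⟨s, -, rfl⟩ := Finset.mem_image.1 hs'
    simp only [k2, hρ.ne_iff]
    exact ico_E0.2 p (mem_univ _) q (mem_univ _) r (mem_univ _) s (mem_univ _)

theorem no_ten (hκ : Fintype.card κ = 10) {good : List (κ × F2) → Prop}
    (hg : ∀ l, good l → Clique e l) (hg' : ∀ l, good l → good (l.map fl))
    (hI : ∀ l, good l → (l.toFinset.image Prod.fst).card = 4 →
      Ico e (l.toFinset.image Prod.fst)ᶜ)
    {H : Co (κ × F2) → F2} (h : Hm fl good 3 H) : False := by
  obtain ⟨D, ⟨Q, hQ⟩, h1, h2⟩ := pseudo_col h0 hg hg' h (by norm_num)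
  have hD : ∀ Q, D Q → Ico e Qᶜ := by
    intro Q hQ
    obtain ⟨k1, -, l, k, rfl⟩ := h1 Q hQ
    exact hI l k k1
  have five : ∀ a ∉ Q, ¬ Coh e (insert a Q) := by
    intro a ha hc
    have c5 : (insert a Q)ᶜ.card = 5 := by
      rw [Finset.card_compl, Finset.card_insert_of_notMem ha, (h1 Q hQ).1, hκ]
    have key : ∀ u ∈ (insert a Q)ᶜ, ∀ v ∈ (insert a Q)ᶜ, ∀ w ∈ (insert a Q)ᶜ, u ≠ v → u ≠ w →
        v ≠ w → tri e u v w = 1 := by
      intro u hu v hv w hw k1 k2 k3
      refine (F2_cases _).resolve_left fun t => no_cover (R := univ)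
        (fun l hl => ⟨hg l hl, fun _ _ => mem_univ _⟩) h
        ![insert a Q, {u, v, w}, (insert a Q)ᶜ \ {u, v, w}] ?_ ?_
      · intro k
        fin_cases k
        · exact hc
        · exact coh3 h0 hs t
        · refine coh2 h0 hs ?_
          show ((insert a Q)ᶜ \ {u, v, w}).card ≤ 2
          rw [Finset.card_sdiff_of_subset
            (by intro x; simp only [mem_insert, mem_singleton]; grind),
            Finset.card_eq_three.2 ⟨u, v, w, k1, k2, k3, rfl⟩, c5]
      · intro i _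
        by_cases k1 : i ∈ insert a Q
        · exact ⟨0, k1⟩
        by_cases k2 : i ∈ ({u, v, w} : Finset κ)
        · exact ⟨1, k2⟩
        · exact ⟨2, Finset.mem_sdiff.2 ⟨Finset.mem_compl.2 k1, k2⟩⟩
    obtain ⟨p, hp, q, hq, r, hr, s, hs', k1, k2, k3, k4, k5, k6⟩ :=
      Finset.three_lt_card.1 (show 3 < (insert a Q)ᶜ.card by omega)
    have sub : (insert a Q)ᶜ ⊆ Qᶜ := Finset.compl_subset_compl.2 (Finset.subset_insert _ _)
    refine (hD Q hQ).2 p (sub hp) q (sub hq) r (sub hr) s (sub hs') k1 k2 k3 k4 k5 k6 ?_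
    rw [key p hp q hq r hr k1 k2 k4, key p hp q hq s hs' k1 k3 k5, key p hp r hr s hs' k2 k3 k6]
    exact ⟨rfl, rfl⟩
  have nb : ∀ q ∈ Q, ∃ a ∉ Q, Coh e (insert a (Q.erase q)) ∧
      ∀ u ∉ Q, ∀ v ∉ Q, u ≠ a → v ≠ a → tri e u v a = tri e u v q := by
    intro q hq
    obtain ⟨a, ha, k⟩ := h2 Q hQ q hq
    refine ⟨a, ha, (h1 _ k).2.1, fun u hu v hv ua va => ?_⟩
    have k1 := (hD Q hQ).1 u (Finset.mem_compl.2 hu) v (Finset.mem_compl.2 hv)
    have k2 := (hD _ k).1 u (by simp [ua, hu]) v (by simp [va, hv])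
    have e1 : (insert a (Q.erase q))ᶜ = insert q (Qᶜ.erase a) := by
      ext x
      simp only [mem_compl, mem_insert, mem_erase]
      constructor
      · tauto
      · rintro (rfl | k)
        · rintro (rfl | k)
          · exact ha hq
          · exact k.1 rfl
        · tauto
    rw [e1, Finset.sum_insert (by simp [hq])] at k2
    rw [← Finset.add_sum_erase _ _ (Finset.mem_compl.2 ha)] at k1
    exact add_right_cancel (k1.trans k2.symm)
  choose! A hA hC hT using nb
  have cQ := (h1 Q hQ).2.1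
  have hne : ∀ p ∈ Q, ∀ q ∈ Q, p ≠ q → A p ≠ A q := by
    intro p hp q hq hpq k
    obtain ⟨r, hr, r1, r2⟩ : ∃ r ∈ Q, r ≠ p ∧ r ≠ q := by
      by_contra hc
      push Not at hc
      have : Q ⊆ {p, q} := fun x hx => by
        by_cases k : x = p
        · simp [k]
        · simp [hc x hx k]
      have := (Finset.card_le_card this).trans Finset.card_le_two
      have := (h1 Q hQ).1
      omega
    have one : ∀ i ∈ Q, tri e r (A p) i = 0 := by
      intro i hi
      by_cases k' : i = p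
      · rw [k]; exact (hC q hq).tri (by simp [hr, r2]) (by simp) (by simp [k', hp, hpq])
      · exact (hC p hp).tri (by simp [hr, r1]) (by simp) (by simp [k', hi])
    refine five (A p) (hA p hp) (coh_of r fun i hi j hj => ?_)
    rcases Finset.mem_insert.1 hi with rfl | hi <;> rcases Finset.mem_insert.1 hj with rfl | hj
    · exact tri_2 h0 _ _
    · exact one j hj
    · rw [tri_c hs]; exact one i hi
    · exact cQ.tri hr hi hj
  have eqn : ∀ p ∈ Q, ∀ q ∈ Q, ∀ r ∈ Q, ∀ s ∈ Q, p ≠ q → p ≠ r → p ≠ s → q ≠ r → q ≠ s →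
      tri e (A p) (A q) (A r) = tri e (A p) (A q) (A s) := by
    intro p hp q hq r hr s hs' k1 k2 k3 k4 k5
    rw [hT r hr _ (hA p hp) _ (hA q hq) (hne p hp r hr k2) (hne q hq r hr k4),
      hT s hs' _ (hA p hp) _ (hA q hq) (hne p hp s hs' k3) (hne q hq s hs' k5)]
    have a1 : tri e (A p) r s = 0 :=
      (hC p hp).tri (by simp) (by simp [hr, k2.symm]) (by simp [hs', k3.symm])
    have a2 : tri e (A q) r s = 0 :=
      (hC q hq).tri (by simp) (by simp [hr, k4.symm]) (by simp [hs', k5.symm])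
    have := tri_4 (e := e) (A p) (A q) r s
    rw [a1, a2] at this
    revert this
    generalize tri e (A p) (A q) r = s; generalize tri e (A p) (A q) _ = t; revert s t; decide
  obtain ⟨p, hp, q, hq, r, hr, s, hs', k1, k2, k3, k4, k5, k6⟩ :=
    Finset.three_lt_card.1 (show 3 < Q.card by have := (h1 Q hQ).1; omega)
  refine (hD Q hQ).2 _ (Finset.mem_compl.2 (hA p hp)) _ (Finset.mem_compl.2 (hA q hq))
    _ (Finset.mem_compl.2 (hA r hr)) _ (Finset.mem_compl.2 (hA s hs')) (hne p hp q hq k1)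
    (hne p hp r hr k2) (hne p hp s hs' k3) (hne q hq r hr k4) (hne q hq s hs' k5)
    (hne r hr s hs' k6) ⟨eqn p hp q hq r hr s hs' k1 k2 k3 k4 k5, ?_⟩
  rw [tri_c hs]
  exact eqn p hp r hr q hq s hs' k2 k1 k3 k4.symm k6

end Vale.Agent.P052
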