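import Mathlib

namespace Vale.Agent.P052

open Finset
open scoped RealInnerProductSpace

abbrev E (n : ℕ) := EuclideanSpace ℝ (Fin n)

def idx : Fin 4 → Fin 4 → Fin 10 :=
  ![![0, 4, 5, 6], ![4, 1, 7, 8], ![5, 7, 2, 9], ![6, 8, 9, 3]]

lemma idx_symm : ∀ a b, idx a b = idx b a := by decide

lemma idx_surj : ∀ i, ∃ a b, idx a b = i := by decide

/-- The symmetric operator with the ten given entries. -/
noncomputable def op (p : E 10) : E 4 →ₗ[ℝ] E 4 :=
  Matrix.toEuclideanLin (Matrix.of fun a b => p (idx a b))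

lemma inner_op (p : E 10) (x y : E 4) : ⟪x, op p y⟫ = ∑ a, ∑ b, p (idx a b) * (x a * y b) := by
  simp only [op, PiLp.inner_apply, Matrix.toLpLin_apply, Matrix.mulVec, dotProduct,
    Matrix.of_apply, RCLike.inner_apply, conj_trivial, Finset.sum_mul]
  exact Finset.sum_congr rfl fun a _ => Finset.sum_congr rfl fun b _ => by ring

lemma op_symm (p : E 10) : (op p).IsSymmetric := by
  intro x y
  rw [real_inner_comm, inner_op, inner_op, Finset.sum_comm]
  exact Finset.sum_congr rfl fun a _ => Finset.sum_congr rfl fun b _ => by rw [idx_symm]; ring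

lemma op_bound (p q : E 10) {x y : E 4} (hx : ‖x‖ = 1) (hy : ‖y‖ = 1) :
    |⟪x, op p y⟫ - ⟪x, op q y⟫| ≤ 16 * ‖p - q‖ := by
  rw [inner_op, inner_op, ← Finset.sum_sub_distrib]
  simp only [← Finset.sum_sub_distrib, ← sub_mul]
  have : ∀ a b, |(p (idx a b) - q (idx a b)) * (x a * y b)| ≤ ‖p - q‖ := by
    intro a b
    have h1 : |(p - q) (idx a b)| ≤ ‖p - q‖ := PiLp.norm_apply_le (p - q) _
    have h2 : |x a| ≤ 1 := hx ▸ PiLp.norm_apply_le x a
    have h3 : |y b| ≤ 1 := hy ▸ PiLp.norm_apply_le y b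
    rw [abs_mul, abs_mul]
    calc _ ≤ ‖p - q‖ * (1 * 1) := by gcongr; exact h1
      _ = _ := by ring
  refine (Finset.abs_sum_le_sum_abs _ _).trans ?_
  calc _ ≤ ∑ a : Fin 4, ∑ b : Fin 4, ‖p - q‖ := Finset.sum_le_sum fun a _ =>
        (Finset.abs_sum_le_sum_abs _ _).trans (Finset.sum_le_sum fun b _ => this a b)
    _ = _ := by simp; ring

lemma exists_eig (p : E 10) (hp : ‖p‖ = 1) :
    ∃ (z : E 4) (μ : ℝ), ‖z‖ = 1 ∧ 1 / 16 ≤ |μ| ∧ op p z = μ • z := by
  have hn : Module.finrank ℝ (E 4) = 4 := by simp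
  let b := (op_symm p).eigenvectorBasis hn
  let μ := (op_symm p).eigenvalues hn
  have hb : ∀ k, op p (b k) = μ k • b k := fun k => (op_symm p).apply_eigenvectorBasis hn k
  by_contra hc
  push Not at hc
  have hμ : ∀ k, |μ k| < 1 / 16 := fun k => by
    by_contra h
    exact hc (b k) (μ k) (b.orthonormal.1 k) (not_lt.1 h) (hb k)
  have hi : ∀ i, |p i| ≤ 1 / 4 := by
    intro i
    obtain ⟨a, a', rfl⟩ := idx_surj i
    have e1 : p (idx a a') = ⟪EuclideanSpace.single a 1, op p (EuclideanSpace.single a' 1)⟫ := by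
      rw [inner_op]
      simp [Pi.single_apply, ite_and]
    rw [e1, ← op_symm p, ← b.sum_inner_mul_inner]
    refine (Finset.abs_sum_le_sum_abs _ _).trans ?_
    calc _ ≤ ∑ k : Fin 4, (1 / 16 : ℝ) := Finset.sum_le_sum fun k _ => by
          rw [op_symm p, hb, inner_smul_right, abs_mul, abs_mul]
          have h1 := abs_real_inner_le_norm (EuclideanSpace.single a (1 : ℝ) : E 4) (b k)
          have h2 := abs_real_inner_le_norm (b k) (EuclideanSpace.single a' (1 : ℝ) : E 4)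
          simp only [PiLp.norm_single, norm_one, b.orthonormal.1 k, mul_one] at h1 h2
          have h3 := (hμ k).le
          exact le_trans (b := 1 / 16 * 1 * 1) (by gcongr) (by norm_num)
      _ = _ := by simp; norm_num
  have h1 := EuclideanSpace.real_norm_sq_eq p
  have h2 : ∑ i, p i ^ 2 ≤ ∑ i : Fin 10, (1 / 4 : ℝ) ^ 2 :=
    Finset.sum_le_sum fun i _ => by rw [← sq_abs]; gcongr; exact hi i
  rw [hp] at h1
  simp at h2
  linarith

lemma op_neg (p : E 10) (x : E 4) : op (-p) x = - op p x := by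
  refine ext_inner_left ℝ fun y => ?_
  simp [inner_op]

theorem eig : ∃ (z : E 10 → E 4) (μ : E 10 → ℝ),
    (∀ p, ‖p‖ = 1 → ‖z p‖ = 1 ∧ μ p ≠ 0 ∧ z (-p) = z p ∧ μ (-p) = - μ p) ∧
    ∀ p q, ‖p‖ = 1 → ‖q‖ = 1 → 0 < μ p → μ q < 0 → |⟪z p, z q⟫| ≤ 128 * ‖p - q‖ := by
  classical
  choose! z0 μ0 h1 h2 h3 using exists_eig
  let P : E 10 → Prop := fun p => WellOrderingRel p (-p)
  have hP : ∀ p, ‖p‖ = 1 → (P (-p) ↔ ¬ P p) := by
    intro p hp
    have hne : p ≠ -p := by
      intro h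
      have : p = 0 := by
        have : (2 : ℝ) • p = 0 := by rw [two_smul]; nth_rewrite 2 [h]; simp
        simpa using this
      simp [this] at hp
    simp only [P, neg_neg]
    refine ⟨fun h k => asymm h k, fun h => ?_⟩
    rcases trichotomous_of WellOrderingRel p (-p) with k | k | k
    exacts [absurd k h, absurd k hne, k]
  let z : E 10 → E 4 := fun p => if P p then z0 p else z0 (-p)
  let μ : E 10 → ℝ := fun p => if P p then μ0 p else - μ0 (-p)
  have key : ∀ p, ‖p‖ = 1 → ‖z p‖ = 1 ∧ 1 / 16 ≤ |μ p| ∧ op p (z p) = μ p • z p := by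
    intro p hp
    have hp' : ‖-p‖ = 1 := by simpa using hp
    by_cases k : P p
    · simp only [z, μ, k, if_true]; exact ⟨h1 p hp, h2 p hp, h3 p hp⟩
    · simp only [z, μ, k, if_false, abs_neg]
      refine ⟨h1 _ hp', h2 _ hp', ?_⟩
      have := h3 _ hp'
      rw [op_neg] at this
      rw [neg_smul, ← this, neg_neg]
  refine ⟨z, μ, fun p hp => ⟨(key p hp).1, fun k => ?_, ?_, ?_⟩, fun p q hp hq k1 k2 => ?_⟩
  · have := (key p hp).2.1
    rw [k] at this; norm_num at this
  · by_cases k : P p <;> simp [z, hP p hp, k]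
  · by_cases k : P p <;> simp [μ, hP p hp, k]
  · obtain ⟨a1, a2, a3⟩ := key p hp
    obtain ⟨b1, b2, b3⟩ := key q hq
    have h := op_bound p q a1 b1
    rw [← op_symm p, a3, b3, inner_smul_left, inner_smul_right, conj_trivial, ← sub_mul, abs_mul,
      abs_of_pos (by linarith)] at h
    rw [abs_of_pos k1] at a2
    rw [abs_of_neg k2] at b2
    nlinarith [abs_nonneg ⟪z p, z q⟫]

end Vale.Agent.P052
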