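import Vale.Agent.P052.Sign

namespace Vale.Agent.P052

open Finset
open scoped RealInnerProductSpace

/-- Coordinates of the rank-one projector `x xᵀ` in the nine-dimensional affine space of
symmetric matrices of trace one. -/
noncomputable def ver (x : E 4) : Fin 9 → ℝ :=
  ![√2 * (x 0 * x 1), √2 * (x 0 * x 2), √2 * (x 0 * x 3), √2 * (x 1 * x 2), √2 * (x 1 * x 3),
    √2 * (x 2 * x 3), (x 0 ^ 2 + x 1 ^ 2 - x 2 ^ 2 - x 3 ^ 2) / 2,
    (x 0 ^ 2 - x 1 ^ 2 + x 2 ^ 2 - x 3 ^ 2) / 2, (x 0 ^ 2 - x 1 ^ 2 - x 2 ^ 2 + x 3 ^ 2) / 2]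

lemma norm_four {x : E 4} (hx : ‖x‖ = 1) : x 0 ^ 2 + x 1 ^ 2 + x 2 ^ 2 + x 3 ^ 2 = 1 := by
  have := EuclideanSpace.real_norm_sq_eq x
  rw [hx, Fin.sum_univ_four] at this
  linarith

lemma ver_inner (x y : E 4) : ∑ i, ver x i * ver y i = ⟪x, y⟫ ^ 2 -
    (x 0 ^ 2 + x 1 ^ 2 + x 2 ^ 2 + x 3 ^ 2) * (y 0 ^ 2 + y 1 ^ 2 + y 2 ^ 2 + y 3 ^ 2) / 4 := by
  have h : √2 ^ 2 = 2 := Real.sq_sqrt (by norm_num)
  simp only [ver, Fin.sum_univ_succ, PiLp.inner_apply, RCLike.inner_apply, conj_trivial,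
    Matrix.cons_val_zero, Matrix.cons_val_succ, Finset.univ_eq_empty, Finset.sum_empty]
  simp only [Fin.succ_zero_eq_one, Fin.succ_one_eq_two, show (2 : Fin 3).succ = 3 from rfl]
  linear_combination (x 0 * x 1 * (y 0 * y 1) + x 0 * x 2 * (y 0 * y 2) + x 0 * x 3 * (y 0 * y 3) +
    x 1 * x 2 * (y 1 * y 2) + x 1 * x 3 * (y 1 * y 3) + x 2 * x 3 * (y 2 * y 3)) * h

lemma ver_sq {x : E 4} (hx : ‖x‖ = 1) : ∑ i, ver x i ^ 2 = 3 / 4 := by
  simp only [pow_two (ver x _)]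
  rw [ver_inner, norm_four hx, real_inner_self_eq_norm_sq, hx]; norm_num

lemma ver_dist {x y : E 4} (hx : ‖x‖ = 1) (hy : ‖y‖ = 1) :
    ∑ i, (ver x i - ver y i) ^ 2 = 2 - 2 * ⟪x, y⟫ ^ 2 := by
  have : ∀ i, (ver x i - ver y i) ^ 2 = ver x i ^ 2 + ver y i ^ 2 - 2 * (ver x i * ver y i) :=
    fun i => by ring
  simp only [this, Finset.sum_sub_distrib, Finset.sum_add_distrib, ← Finset.mul_sum]
  rw [ver_sq hx, ver_sq hy, ver_inner, norm_four hx, norm_four hy]; ring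

lemma ver_neg (x : E 4) : ver (-x) = ver x := by simp [ver]

theorem main (d : ℕ) (hd : 9 ≤ d) : ∃ Y : Set (EuclideanSpace ℝ (Fin d)),
    Bornology.IsBounded Y ∧ 0 < Metric.diam Y ∧
    ¬ ∃ P : Fin (d + 1) → Set (EuclideanSpace ℝ (Fin d)),
      ⋃ i, P i = Y ∧ ∀ i, Metric.diam (P i) < Metric.diam Y := by
  classical
  obtain ⟨k, rfl⟩ : ∃ k, d = 9 + k := ⟨d - 9, by omega⟩
  obtain ⟨t, ht⟩ : ∃ t : ℝ, 2 * t + k * t ^ 2 = 1 / 4 := by
    have h1 : √(1 + k / 4) ^ 2 = 1 + k / 4 := Real.sq_sqrt (by positivity)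
    have h2 := Real.sqrt_nonneg (1 + k / 4)
    generalize √(1 + k / 4) = s at h1 h2
    refine ⟨1 / (4 * (1 + s)), ?_⟩
    rw [show (k : ℝ) = 4 * (s ^ 2 - 1) by linarith]
    field_simp
    ring
  let ι : E 4 → E (9 + k) := fun x => WithLp.toLp 2 (Fin.append (ver x) 0)
  let a : Fin k → E (9 + k) := fun i =>
    WithLp.toLp 2 (Fin.append 0 fun j => (if j = i then 1 else 0) + t)
  have d1 : ∀ x y, ‖x‖ = 1 → ‖y‖ = 1 → dist (ι x) (ι y) ^ 2 = 2 - 2 * ⟪x, y⟫ ^ 2 := by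
    intro x y hx hy
    rw [EuclideanSpace.dist_sq_eq, Fin.sum_univ_add]
    simp [ι, Real.dist_eq, ver_dist hx hy]
  have d2 : ∀ x i, ‖x‖ = 1 → dist (ι x) (a i) ^ 2 = 2 := by
    intro x i hx
    rw [EuclideanSpace.dist_sq_eq, Fin.sum_univ_add]
    have : ∀ j : Fin k, ((if j = i then 1 else 0) + t) ^ 2 =
        (if j = i then 1 + 2 * t else 0) + t ^ 2 := fun j => by split_ifs <;> ring
    simp [ι, a, ver_sq hx, this, Finset.sum_add_distrib]
    linarith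
  have d3 : ∀ i j, i ≠ j → dist (a i) (a j) ^ 2 = 2 := by
    intro i j hij
    rw [EuclideanSpace.dist_sq_eq, Fin.sum_univ_add]
    have : ∀ l : Fin k, ((if l = i then 1 else 0) - (if l = j then (1 : ℝ) else 0)) ^ 2 =
        (if l = i then 1 else 0) + (if l = j then 1 else 0) := fun l => by
      by_cases h1 : l = i <;> by_cases h2 : l = j <;> simp_all
    simp [a, Real.dist_eq, this, Finset.sum_add_distrib]
    norm_num
  set Y : Set (E (9 + k)) := ι '' {x | ‖x‖ = 1} ∪ Set.range a with hY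
  have sq : ∀ {r : ℝ}, r ^ 2 ≤ 2 → r ≤ √2 := fun h => Real.le_sqrt_of_sq_le h
  have sq' : ∀ {p q : E (9 + k)}, dist p q ^ 2 = 2 → dist p q = √2 := fun h => by
    rw [← h, Real.sqrt_sq dist_nonneg]
  have d4 : ∀ p ∈ Y, ∀ q ∈ Y, dist p q ≤ √2 := by
    rintro p (⟨x, hx, rfl⟩ | ⟨i, rfl⟩) q (⟨y, hy, rfl⟩ | ⟨j, rfl⟩)
    · exact sq (by rw [d1 x y hx hy]; nlinarith [sq_nonneg ⟪x, y⟫])
    · exact (sq' (d2 x j hx)).le
    · rw [dist_comm]; exact (sq' (d2 y i hy)).le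
    · by_cases h : i = j
      · simp [h]
      · exact (sq' (d3 i j h)).le
  have hb : Bornology.IsBounded Y := Metric.isBounded_iff.2 ⟨√2, fun p hp q hq => d4 p hp q hq⟩
  have hD : Metric.diam Y ≤ √2 := Metric.diam_le_of_forall_dist_le (by positivity) d4
  refine ⟨Y, hb, ?_, ?_⟩
  · have h1 : ‖(EuclideanSpace.single 0 1 : E 4)‖ = 1 := by simp
    have h2 : ‖(EuclideanSpace.single 1 1 : E 4)‖ = 1 := by simp
    have h3 := d1 _ _ h1 h2
    rw [EuclideanSpace.inner_single_left] at h3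
    have h4 := sq' (h3.trans (by simp))
    have := Metric.dist_le_diam_of_mem hb (Or.inl ⟨_, h1, rfl⟩) (Or.inl ⟨_, h2, rfl⟩)
    rw [h4] at this
    exact lt_of_lt_of_le (by positivity) this
  rintro ⟨P, hP, hdiam⟩
  obtain ⟨i0, hi0⟩ := Finite.exists_max fun i => Metric.diam (P i)
  set D := Metric.diam (P i0) with hDD
  have hD0 : 0 ≤ D := Metric.diam_nonneg
  have hD2 : D < √2 := (hdiam i0).trans_le hD
  have hg : ∀ p ∈ Y, ∃ i, p ∈ P i := fun p hp => Set.mem_iUnion.1 (hP ▸ hp)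
  choose! g hg using hg
  have same : ∀ p ∈ Y, ∀ q ∈ Y, g p = g q → dist p q ≤ D := fun p hp q hq h =>
    (Metric.dist_le_diam_of_mem (hb.subset (hP ▸ Set.subset_iUnion P (g q))) (h ▸ hg p hp)
      (hg q hq)).trans (hi0 _)
  have inj : Function.Injective fun i => g (a i) := by
    intro i j h
    by_contra hij
    have := same _ (Or.inr ⟨i, rfl⟩) _ (Or.inr ⟨j, rfl⟩) h
    rw [sq' (d3 i j hij)] at this
    linarith
  set T := (univ.image fun i => g (a i))ᶜ with hT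
  have hTc : T.card = 10 := by
    rw [hT, Finset.card_compl, Finset.card_image_of_injective _ inj]; simp; omega
  have mem : ∀ x, ‖x‖ = 1 → g (ι x) ∈ T := by
    intro x hx
    refine Finset.mem_compl.2 fun h => ?_
    obtain ⟨i, -, h⟩ := Finset.mem_image.1 h
    have := same _ (Or.inl ⟨x, hx, rfl⟩) _ (Or.inr ⟨i, rfl⟩) h.symm
    rw [sq' (d2 x i hx)] at this
    linarith
  let ε := Finset.equivFinOfCardEq hTc
  have hD3 : D ^ 2 < 2 := by
    have : √2 ^ 2 = 2 := Real.sq_sqrt (by norm_num)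
    nlinarith
  refine no_col (col := fun x => if h : g (ι x) ∈ T then ε ⟨_, h⟩ else 0)
    (γ := √(1 - D ^ 2 / 2)) ⟨Real.sqrt_pos.2 (by linarith), fun x y hx hy h => ?_, fun x => ?_⟩
  · rw [dif_pos (mem x hx), dif_pos (mem y hy)] at h
    have h1 := same _ (Or.inl ⟨x, hx, rfl⟩) _ (Or.inl ⟨y, hy, rfl⟩)
      (congrArg Subtype.val (ε.injective h))
    have h2 := d1 x y hx hy
    have h3 : dist (ι x) (ι y) ^ 2 ≤ D ^ 2 := by gcongr
    rw [← Real.sqrt_sq_eq_abs]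
    exact Real.sqrt_le_sqrt (by linarith)
  · simp only [ι, ver_neg]

end Vale.Agent.P052
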