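import Vale.Agent.P052.Sphere
import Vale.Agent.P052.Comb
import Vale.Agent.P052.Eig

namespace Vale.Agent.P052

open Finset
open scoped RealInnerProductSpace

/-- A colouring of lines with ten colours in which nearly orthogonal lines differ. -/
structure Col (col : E 4 → Fin 10) (γ : ℝ) : Prop where
  pos : 0 < γ
  gap : ∀ x y, ‖x‖ = 1 → ‖y‖ = 1 → col x = col y → γ ≤ |⟪x, y⟫|
  neg : ∀ x, col (-x) = col x

def Near (col : E 4 → Fin 10) (γ : ℝ) (i : Fin 10) (x : E 4) : Prop :=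
  ‖x‖ = 1 ∧ ∃ x', ‖x'‖ = 1 ∧ col x' = i ∧ ‖x - x'‖ ≤ γ / 4

variable {col : E 4 → Fin 10} {γ : ℝ}

lemma inner_close (x x' : E 4) {y : E 4} (hy : ‖y‖ = 1) : |⟪x, y⟫ - ⟪x', y⟫| ≤ ‖x - x'‖ := by
  rw [← inner_sub_left]
  simpa [hy] using abs_real_inner_le_norm (x - x') y

lemma Near.inner (h : Col col γ) {i : Fin 10} {x y : E 4} (hx : Near col γ i x) (hy : ‖y‖ = 1)
    (hc : col y = i) : 3 * γ / 4 ≤ |⟪x, y⟫| := by
  obtain ⟨-, x', h1, h2, h3⟩ := hx
  have k1 := h.gap x' y h1 hy (h2.trans hc.symm)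
  have k2 := inner_close x x' hy
  have k3 := abs_sub_abs_le_abs_sub ⟪x', y⟫ ⟪x, y⟫
  rw [abs_sub_comm] at k3
  linarith

lemma same_sign (h : Col col γ) {i j : Fin 10} {x y y' : E 4} (hi : Near col γ i x)
    (hj : Near col γ j x) (hy : ‖y‖ = 1) (hy' : ‖y'‖ = 1) (c1 : col y = i ∨ col y = j)
    (c2 : col y' = i ∨ col y' = j)
    (hw : ∀ k, k ≠ i → k ≠ j → ∃ w, ‖w‖ = 1 ∧ col w = k ∧ |⟪y, w⟫| ≤ γ / 2 ∧ |⟪y', w⟫| ≤ γ / 2)
    (h0 : 0 ≤ ⟪y, y'⟫) : 0 < ⟪x, y⟫ * ⟪x, y'⟫ := by
  have hγ := h.pos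
  have hne : ∀ y, ‖y‖ = 1 → (col y = i ∨ col y = j) → 0 < |⟪x, y⟫| := by
    rintro y hy (k | k)
    · linarith [hi.inner h hy k]
    · linarith [hj.inner h hy k]
  have ha := hne y hy c1
  have hb := hne y' hy' c2
  by_contra hc
  set a := ⟪x, y⟫ with ha'
  set b := ⟪x, y'⟫ with hb'
  set w := |b| • y + |a| • y' with hw'
  have k1 : ⟪x, w⟫ = 0 := by
    rw [hw', inner_add_right, inner_smul_right, inner_smul_right, ← ha', ← hb']
    rcases abs_cases a with k | k <;> rcases abs_cases b with l | l <;> nlinarith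
  have k2 : |a| ^ 2 + |b| ^ 2 ≤ ‖w‖ ^ 2 := by
    rw [hw', norm_add_sq_real, norm_smul, norm_smul, inner_smul_left, inner_smul_right, hy, hy']
    simp only [Real.norm_eq_abs, abs_abs, conj_trivial, mul_one]
    have : 0 ≤ |b| * (|a| * ⟪y, y'⟫) := by positivity
    linarith
  have k3 : 0 < ‖w‖ := by
    by_contra k
    have : ‖w‖ = 0 := le_antisymm (not_lt.1 k) (norm_nonneg _)
    rw [this] at k2; nlinarith
  have k4 : ‖‖w‖⁻¹ • w‖ = 1 := by rw [norm_smul]; simp [k3.ne']
  by_cases k5 : col (‖w‖⁻¹ • w) = i ∨ col (‖w‖⁻¹ • w) = j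
  · have := hne _ k4 k5
    rw [inner_smul_right, k1] at this
    simp at this
  · push Not at k5
    obtain ⟨v, v1, v2, v3, v4⟩ := hw _ k5.1 k5.2
    have k6 := h.gap _ v k4 v1 v2.symm
    rw [inner_smul_left, conj_trivial, abs_mul, abs_of_pos (inv_pos.2 k3), le_inv_mul_iff₀ k3] at k6
    have k7 : |⟪w, v⟫| ≤ |b| * (γ / 2) + |a| * (γ / 2) := by
      rw [hw', inner_add_left, inner_smul_left, inner_smul_left]
      refine (abs_add_le _ _).trans ?_
      simp only [conj_trivial, abs_mul, abs_abs]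
      gcongr
    have k8 : 2 * ‖w‖ ≤ |a| + |b| := by
      by_contra k
      nlinarith
    nlinarith [sq_nonneg (|a| - |b|)]

lemma same_chi (h : Col col γ) {i j : Fin 10} {x x' y y' : E 4} (hi : Near col γ i x)
    (hj : Near col γ j x) (hi' : Near col γ i x') (hj' : Near col γ j x')
    (hy : ‖y‖ = 1) (hy' : ‖y'‖ = 1) (c1 : col y = i ∨ col y = j) (c2 : col y' = i ∨ col y' = j)
    (hw : ∀ k, k ≠ i → k ≠ j → ∃ w, ‖w‖ = 1 ∧ col w = k ∧ |⟪y, w⟫| ≤ γ / 2 ∧ |⟪y', w⟫| ≤ γ / 2)
    (h1 : ⟪x, y⟫ * ⟪x', y⟫ < 0) : ⟪x, y'⟫ * ⟪x', y'⟫ < 0 := by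
  have key : 0 < (⟪x, y⟫ * ⟪x, y'⟫) * (⟪x', y⟫ * ⟪x', y'⟫) := by
    rcases le_total 0 ⟪y, y'⟫ with k | k
    · exact mul_pos (same_sign h hi hj hy hy' c1 c2 hw k) (same_sign h hi' hj' hy hy' c1 c2 hw k)
    · have a1 : ‖-y'‖ = 1 := by simpa using hy'
      have a2 : col (-y') = i ∨ col (-y') = j := by rwa [h.neg]
      have a3 : ∀ k, k ≠ i → k ≠ j → ∃ w, ‖w‖ = 1 ∧ col w = k ∧ |⟪y, w⟫| ≤ γ / 2 ∧
        |⟪-y', w⟫| ≤ γ / 2 := by simpa using hw
      have a4 : 0 ≤ ⟪y, -y'⟫ := by simpa using k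
      have := mul_pos (same_sign h hi hj hy a1 c1 a2 a3 a4) (same_sign h hi' hj' hy a1 c1 a2 a3 a4)
      simpa using this
  by_contra hc
  nlinarith

def pat (f : Fin 10 → F2) : Finset (Fin 10 × F2) := univ.filter fun v => v.2 = f v.1

lemma mem_pat {f : Fin 10 → F2} {v : Fin 10 × F2} : v ∈ pat f ↔ v.2 = f v.1 := by simp [pat]

lemma F2_ne {s t : F2} (h : s ≠ t) : s = t + 1 := by revert s t; decide

lemma all_pat (P : (Fin 10 → F2) → Prop)
    (h : ∀ f j, P f → P (Function.update f j (f j + 1))) {f0 : Fin 10 → F2} (h0 : P f0)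
    (f : Fin 10 → F2) : P f := by
  have : ∀ s : Finset (Fin 10), P fun k => if k ∈ s then f k else f0 k := by
    intro s
    induction s using Finset.induction_on with
    | empty => simpa using h0
    | insert j s hj ih =>
      by_cases k : f j = f0 j
      · convert ih using 2 with x
        by_cases hx : x = j <;> simp [hx, hj, k]
      · convert h _ j ih using 2 with x
        by_cases hx : x = j
        · simp [hx, hj, F2_ne k]
        · simp [hx]
  simpa using this univ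

lemma flip {X : Type} {good : List X → Prop} {Z : Co X → F2} (hZ : Supp good 10 Z)
    (hc : ∀ u, Z (cob u) = 0) (lab : X → Fin 10 × F2) (hl : ∀ l, good l → AF (l.map lab))
    (f : Fin 10 → F2) (j : Fin 10) (β : Co X)
    (hβ : ∀ l, good l → ∀ m, m.Sublist l → (m.map lab).toFinset = (pat f).erase (j, f j) →
      β m = β l) :
    Z (fun l => β l * ind (pat f) (l.map lab)) =
      Z (fun l => β l * ind (pat (Function.update f j (f j + 1))) (l.map lab)) := by
  set τ := (pat f).erase (j, f j) with hτ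
  have h1 := hc fun m => β m * ind τ (m.map lab)
  rw [hZ.congr (v := fun l => β l * ind (pat f) (l.map lab) +
    β l * ind (pat (Function.update f j (f j + 1))) (l.map lab)), hZ.add] at h1
  · have := F2_add_self (Z fun l => β l * ind (pat (Function.update f j (f j + 1))) (l.map lab))
    linear_combination h1 - this
  intro l _ hg
  rw [cob_congr (v := fun m => β l * ind τ (m.map lab)), cob_mul, ← cob_map, cob_ind, ← mul_add]
  · congr 1
    have hne : (j, f j) ≠ (j, f j + 1) := by simp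
    rw [← Finset.sum_subset (s₁ := {(j, f j), (j, f j + 1)}), Finset.sum_pair hne]
    · congr 2
      · exact Finset.insert_erase (mem_pat.2 rfl)
      · ext ⟨k, s⟩
        by_cases hk : k = j
        · subst hk; simp [hτ, mem_pat]
        · simp [hτ, mem_pat, hk]
    · intro v hv
      simp only [mem_insert, mem_singleton] at hv
      rcases hv with rfl | rfl <;> simp [hτ, mem_pat]
    · rintro ⟨k, s⟩ hv hv'
      by_contra hn
      obtain ⟨-, k2⟩ := ind_ne hn
      have hk : k ≠ j := by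
        rintro rfl
        apply hv'
        by_cases k3 : s = f k
        · simp [k3]
        · simp [F2_ne k3]
      have k3 : s = f k + 1 := F2_ne fun k3 => by simp [hτ, mem_pat, hk, k3] at hv
      refine hl l hg (k, f k) (List.mem_toFinset.1 ?_) (List.mem_toFinset.1 ?_)
      · rw [k2]; simp [hτ, mem_pat, hk]
      · rw [k2, k3]; simp [fl]
  · intro m hm
    by_cases k : ind τ (m.map lab) = 0
    · simp [k]
    · rw [hβ l hg m hm (ind_ne k).2]

set_option maxHeartbeats 1000000 in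
theorem signs (h : Col col γ) : ∃ s : Fin 10 → E 4 → F2,
    (∀ i x, Near col γ i x → s i (-x) = s i x + 1) ∧
    (∀ i x x', Near col γ i x → ‖x - x'‖ ≤ γ / 4 → s i x = s i x') ∧
    ∀ i j x x', Near col γ i x → Near col γ j x → Near col γ i x' → Near col γ j x' →
      s i x + s i x' = s j x + s j x' := by
  classical
  have hγ := h.pos
  obtain ⟨z, μ, hz, ho⟩ := eig
  obtain ⟨H, hH⟩ := exists_hm' (E := E 10) (n := 9) (by simp) (δ := γ / 256) (by positivity)
  let lab : E 10 → Fin 10 × F2 := fun p => (col (z p), if 0 < μ p then 0 else 1)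
  have orth : ∀ l, Small (γ / 256) l → ∀ p ∈ l, ∀ q ∈ l, (lab p).2 = 0 → (lab q).2 = 1 →
      |⟪z p, z q⟫| ≤ γ / 2 := by
    intro l hl p hp q hq k1 k2
    have a1 : 0 < μ p := by by_contra k; simp [lab, k] at k1
    have a2 : μ q < 0 := lt_of_le_of_ne (by by_contra k; simp [lab, not_le.1 k] at k2)
      (hz q (hl q hq).1).2.1
    have := ho p q (hl p hp).1 (hl q hq).1 a1 a2
    have := (hl p hp).2 q hq
    linarith
  have haf : ∀ l, Small (γ / 256) l → AF (l.map lab) := by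
    intro l hl x hx' hy'
    obtain ⟨p, hp, rfl⟩ := List.mem_map.1 hx'
    obtain ⟨q, hq, k⟩ := List.mem_map.1 hy'
    have k1 : col (z q) = col (z p) := congrArg Prod.fst k
    have k2 : (lab q).2 = (lab p).2 + 1 := congrArg Prod.snd k
    have k3 := h.gap _ _ (hz q (hl q hq).1).1 (hz p (hl p hp).1).1 k1
    rcases F2_cases (lab p).2 with k4 | k4
    · have := orth l hl p hp q hq k4 (by rw [k2, k4]; rfl)
      rw [real_inner_comm] at this; linarith
    · have := orth l hl q hq p hp (by rw [k2, k4]; rfl) k4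
      linarith
  have hlab : ∀ p, ‖p‖ = 1 → lab (-p) = fl (lab p) := by
    intro p hp
    obtain ⟨-, a1, a2, a3⟩ := hz p hp
    simp only [lab, fl, a2, a3]
    rcases lt_or_gt_of_ne a1 with k | k
    · simp [k, k.not_gt]; rfl
    · simp [k, k.not_gt]
  have hs := hH.cyc_supp fun l hl => hl.neg
  have hc := hH.cyc_cob fun x => neg_neg x
  set Z := cyc (fun x : E 10 => -x) H with hZ
  have odd : ∀ f, Z (fun l => ind (pat f) (l.map lab)) = 1 := by
    obtain ⟨S, hS⟩ := (hH.push (b := fl) (good' := AF) lab haf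
      fun l hl x hx => hlab x (hl x hx).1).exists_odd fl_fl fun _ h => h
    have k1 : Z (fun l => ind S (l.map lab)) = 1 := by
      rw [← hS]
      simp only [hZ, cyc]
      congr 1
      refine hH.supp.congr fun l _ hl => ?_
      congr 1
      simp only [List.map_map]
      exact List.map_congr_left fun x hx => hlab x (hl x hx).1
    obtain ⟨f0, rfl⟩ : ∃ f0, S = pat f0 := by
      by_contra hn
      refine zero_ne_one ((hs.zero _ fun l k2 k3 => ?_).symm.trans k1)
      by_contra k4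
      obtain ⟨k5, rfl⟩ := ind_ne k4
      have inj : Set.InjOn Prod.fst ((l.map lab).toFinset : Set (Fin 10 × F2)) :=
        fun x hx y hy k => (haf l k3).inj (List.mem_toFinset.1 hx) (List.mem_toFinset.1 hy) k
      have k6 : (l.map lab).toFinset.image Prod.fst = univ := Finset.eq_univ_of_card _ (by
        rw [Finset.card_image_of_injOn inj, List.toFinset_card_of_nodup k5]; simpa using k2)
      have k7 : ∀ i, ∃ s, (i, s) ∈ (l.map lab).toFinset := by
        intro i
        obtain ⟨v, hv, rfl⟩ := Finset.mem_image.1 (k6 ▸ mem_univ i)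
        exact ⟨v.2, hv⟩
      choose f0 k7 using k7
      refine hn ⟨f0, ?_⟩
      ext v
      rw [mem_pat]
      exact ⟨fun k => congrArg Prod.snd (inj k (k7 v.1) rfl), fun k => by
        have := k7 v.1
        rwa [← k] at this⟩
    refine all_pat (fun f => Z (fun l => ind (pat f) (l.map lab)) = 1) (fun f j k => ?_) k1
    have := flip hs hc lab haf f j (fun _ => 1) (fun _ _ _ _ _ => rfl)
    simp only [one_mul] at this
    rw [← this]; exact k
  let P : Fin 10 → Fin 10 → F2 := fun i k => if k = i then 0 else 1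
  let B : (E 4 → Prop) → Co (E 10) := fun χ l => if ∃ p ∈ l, (lab p).2 = 0 ∧ χ (z p) then 1 else 0
  obtain ⟨S, hS⟩ : ∃ S : Fin 10 → (E 4 → Prop) → F2, ∀ i χ, S i χ =
    Z fun l => B χ l * ind (pat (P i)) (l.map lab) := ⟨_, fun _ _ => rfl⟩
  have uniq : ∀ i l, Small (γ / 256) l → ind (pat (P i)) (l.map lab) ≠ 0 →
      ∃ y, ‖y‖ = 1 ∧ col y = i ∧ ∀ χ, B χ l = if χ y then 1 else 0 := by
    intro i l hl k
    obtain ⟨k1, k2⟩ := ind_ne k
    obtain ⟨p, hp, k3⟩ := List.mem_map.1 (List.mem_toFinset.1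
      (k2 ▸ mem_pat.2 (by simp [P]) : (i, (0 : F2)) ∈ (l.map lab).toFinset))
    refine ⟨z p, (hz p (hl p hp).1).1, congrArg Prod.fst k3, fun χ => if_congr ⟨?_, ?_⟩ rfl rfl⟩
    · rintro ⟨q, hq, a1, a2⟩
      have a3 : lab q ∈ pat (P i) := k2 ▸ List.mem_toFinset.2 (List.mem_map_of_mem hq)
      rw [mem_pat, a1] at a3
      have a4 : (lab q).1 = i := by by_contra a; simp [P, a] at a3
      rwa [List.inj_on_of_nodup_map k1 hp hq (k3.trans (Prod.ext a4.symm a1.symm))]
    · exact fun a => ⟨p, hp, congrArg Prod.snd k3, a⟩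
  have lin : ∀ i (χ1 χ2 χ3 : E 4 → Prop), (∀ y, ‖y‖ = 1 → col y = i →
      (if χ1 y then 1 else 0) + (if χ2 y then 1 else 0) = (if χ3 y then (1 : F2) else 0)) →
      S i χ1 + S i χ2 = S i χ3 := by
    intro i χ1 χ2 χ3 k
    simp only [hS]
    rw [← hs.add]
    refine hs.congr fun l _ hl => ?_
    by_cases k1 : ind (pat (P i)) (l.map lab) = 0
    · simp [k1]
    · obtain ⟨y, a1, a2, a3⟩ := uniq i l hl k1
      rw [← add_mul, a3, a3, a3, k y a1 a2]
  have St : ∀ i, S i (fun _ => True) = 1 := by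
    intro i
    rw [← odd (P i), hS]
    refine hs.congr fun l _ hl => ?_
    by_cases k1 : ind (pat (P i)) (l.map lab) = 0
    · simp [k1]
    · obtain ⟨y, a1, a2, a3⟩ := uniq i l hl k1
      simp [a3]
  have Sf : ∀ i, S i (fun _ => False) = 0 := fun i =>
    (hS _ _).trans (hs.zero _ fun l _ _ => by simp [B])
  have prod : ∀ i x x', Near col γ i x → Near col γ i x' →
      S i (fun y => ⟪x, y⟫ < 0) + S i (fun y => ⟪x', y⟫ < 0) =
        S i (fun y => ⟪x, y⟫ * ⟪x', y⟫ < 0) := by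
    intro i x x' hx hx'
    refine lin _ _ _ _ fun y a1 a2 => ?_
    have b1 : ⟪x, y⟫ ≠ 0 := abs_pos.1 (by linarith [hx.inner h a1 a2])
    have b2 : ⟪x', y⟫ ≠ 0 := abs_pos.1 (by linarith [hx'.inner h a1 a2])
    rcases lt_or_gt_of_ne b1 with k | k <;> rcases lt_or_gt_of_ne b2 with l | l
    · simp [k, l, (mul_pos_of_neg_of_neg k l).not_gt, F2_add_self]
    · simp [k, l.not_gt, mul_neg_of_neg_of_pos k l]
    · simp [k.not_gt, l, mul_neg_of_pos_of_neg k l]
    · simp [k.not_gt, l.not_gt, (mul_pos k l).not_gt]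
  have fl1 : ∀ i j x x', i ≠ j → Near col γ i x → Near col γ j x → Near col γ i x' →
      Near col γ j x' → S i (fun y => ⟪x, y⟫ * ⟪x', y⟫ < 0) =
        Z fun l => B (fun y => ⟪x, y⟫ * ⟪x', y⟫ < 0) l *
          ind (pat fun k => if k = i ∨ k = j then 0 else 1) (l.map lab) := by
    intro i j x x' hij a1 a2 a3 a4
    have e1 : (fun k => if k = i ∨ k = j then (0 : F2) else 1) =
        Function.update (P i) j (P i j + 1) := by
      funext k
      by_cases hk : k = j
      · simp [hk, P, hij.symm]; rfl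
      · simp [hk, P]
    rw [e1, hS]
    refine flip hs hc lab haf _ _ _ fun l hl m hm k => ?_
    have b1 : ∀ v ∈ (pat (P i)).erase (j, P i j), ∃ p ∈ m, lab p = v := fun v hv =>
      List.mem_map.1 (List.mem_toFinset.1 (k ▸ hv))
    obtain ⟨p0, hp0, b2⟩ := b1 (i, 0) (by simp [mem_pat, P, hij])
    have b3 : ∀ k, k ≠ i → k ≠ j → ∃ q ∈ l, lab q = (k, 1) := fun k k1 k2 => by
      obtain ⟨q, hq, k3⟩ := b1 (k, 1) (by simp [mem_pat, P, k1, k2])
      exact ⟨q, hm.subset hq, k3⟩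
    have b4 : ∀ p ∈ l, (lab p).2 = 0 → col (z p) = i ∨ col (z p) = j := by
      intro p hp k1
      by_contra k2
      push Not at k2
      obtain ⟨q, hq, k3⟩ := b3 _ k2.1 k2.2
      refine haf l hl _ (List.mem_map_of_mem hp) (List.mem_map.2 ⟨q, hq, ?_⟩)
      rw [k3, fl, k1]; rfl
    refine if_congr ⟨fun ⟨p, hp, k1⟩ => ⟨p, hm.subset hp, k1⟩, fun ⟨p, hp, k1, k2⟩ =>
      ⟨p0, hp0, congrArg Prod.snd b2, ?_⟩⟩ rfl rfl
    have hp0' := hm.subset hp0
    refine same_chi h a1 a2 a3 a4 (hz p (hl p hp).1).1 (hz p0 (hl p0 hp0').1).1 (b4 p hp k1)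
      (Or.inl (congrArg Prod.fst b2)) (fun k k3 k4 => ?_) k2
    obtain ⟨q, hq, k5⟩ := b3 k k3 k4
    exact ⟨z q, (hz q (hl q hq).1).1, congrArg Prod.fst k5,
      orth l hl p hp q hq k1 (congrArg Prod.snd k5),
      orth l hl p0 hp0' q hq (congrArg Prod.snd b2) (congrArg Prod.snd k5)⟩
  refine ⟨fun i x => S i fun y => ⟪x, y⟫ < 0, fun i x hx => ?_, fun i x x' hx k => ?_,
    fun i j x x' a1 a2 a3 a4 => ?_⟩
  · have := lin i (fun y => ⟪-x, y⟫ < 0) (fun y => ⟪x, y⟫ < 0) (fun _ => True) fun y a1 a2 => by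
      have b1 : ⟪x, y⟫ ≠ 0 := abs_pos.1 (by linarith [hx.inner h a1 a2])
      rcases lt_or_gt_of_ne b1 with k | k
      · simp [k, k.not_gt]
      · simp [k, k.not_gt]
    rw [St] at this
    have k := F2_add_self (S i fun y => ⟪x, y⟫ < 0)
    linear_combination this - k
  · have := lin i (fun y => ⟪x, y⟫ < 0) (fun y => ⟪x', y⟫ < 0) (fun _ => False) fun y a1 a2 => by
      have b1 := hx.inner h a1 a2
      have b2 := abs_le.1 ((inner_close x x' a1).trans k)
      rcases abs_cases ⟪x, y⟫ with c | c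
      · rw [if_neg (by linarith), if_neg (by linarith)]; simp
      · rw [if_pos (by linarith), if_pos (by linarith)]; simp [F2_add_self]
    rw [Sf] at this
    have k := F2_add_self (S i fun y => ⟪x', y⟫ < 0)
    linear_combination this - k
  · by_cases hij : i = j
    · rw [hij]
    simp only
    rw [prod i x x' a1 a3, prod j x x' a2 a4, fl1 i j x x' hij a1 a2 a3 a4,
      fl1 j i x x' (Ne.symm hij) a2 a1 a4 a3]
    simp only [or_comm]

theorem no_col (h : Col col γ) : False := by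
  classical
  have hγ := h.pos
  obtain ⟨s, s1, s2, s3⟩ := signs h
  let e : Fin 10 → Fin 10 → F2 := fun i j =>
    if k : ∃ x, Near col γ i x ∧ Near col γ j x then s i k.choose + s j k.choose else 0
  have he : ∀ i j x, Near col γ i x → Near col γ j x → e i j = s i x + s j x := by
    intro i j x a1 a2
    have k : ∃ x, Near col γ i x ∧ Near col γ j x := ⟨x, a1, a2⟩
    have := s3 i j x _ a1 a2 k.choose_spec.1 k.choose_spec.2
    simp only [e, dif_pos k]
    linear_combination this + F2_add_self (s j k.choose) - F2_add_self (s i x)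
  have h0 : ∀ i, e i i = 0 := by
    intro i
    simp only [e]
    split_ifs
    exacts [F2_add_self _, rfl]
  have hs : ∀ i j, e i j = e j i := by
    intro i j
    by_cases k : ∃ x, Near col γ i x ∧ Near col γ j x
    · obtain ⟨x, a1, a2⟩ := k
      rw [he i j x a1 a2, he j i x a2 a1, add_comm]
    · simp only [e]
      rw [dif_neg k, dif_neg fun ⟨x, a1, a2⟩ => k ⟨x, a2, a1⟩]
  let L : E 4 → Fin 10 × F2 := fun x => (col x, s (col x) x)
  have near : ∀ l, Small (γ / 4) l → ∀ x ∈ l, ∀ y ∈ l, Near col γ (col y) x :=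
    fun l hl x hx y hy => ⟨(hl x hx).1, y, (hl y hy).1, rfl, (hl x hx).2 y hy⟩
  have hL : ∀ x, ‖x‖ = 1 → L (-x) = fl (L x) := by
    intro x hx
    simp only [L, fl, h.neg]
    rw [s1 _ x ⟨hx, x, hx, rfl, by simp; positivity⟩]
  have hcl : ∀ l, Small (γ / 4) l → Clique e (l.map L) := by
    intro l hl v hv w hw
    obtain ⟨x, hx, rfl⟩ := List.mem_map.1 hv
    obtain ⟨y, hy, rfl⟩ := List.mem_map.1 hw
    simp only [L]
    rw [he _ _ x (near l hl x hx x hx) (near l hl x hx y hy),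
      s2 _ x y (near l hl x hx y hy) ((hl x hx).2 y hy)]
  have hfl : ∀ l, Small (γ / 4) l → (l.map L).map fl = (l.map fun x => -x).map L := by
    intro l hl
    simp only [List.map_map]
    exact List.map_congr_left fun x hx => (hL x (hl x hx).1).symm
  obtain ⟨H, hH⟩ := exists_hm' (E := E 4) (n := 3) (by simp) (δ := γ / 4) (by positivity)
  refine no_ten h0 hs (by simp) (good := fun l' => ∃ l, Small (γ / 4) l ∧ l' = l.map L)
    ?_ ?_ ?_ (hH.push L (fun l hl => ⟨l, hl, rfl⟩) fun l hl x hx => hL x (hl x hx).1)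
  · rintro _ ⟨l, hl, rfl⟩; exact hcl l hl
  · rintro _ ⟨l, hl, rfl⟩; exact ⟨_, hl.neg, hfl l hl⟩
  · rintro _ ⟨l, hl, rfl⟩ hc
    obtain ⟨x, hx⟩ : ∃ x, x ∈ l := by
      rcases l with _ | ⟨x, l⟩
      · simp at hc
      · exact ⟨x, by simp⟩
    have hx0 : x ≠ 0 := by intro k; simpa [k] using (hl x hx).1
    haveI : Fact (Module.finrank ℝ (E 4) = 3 + 1) := ⟨by simp⟩
    obtain ⟨G, hG⟩ := exists_hm' (E := (ℝ ∙ x)ᗮ) (n := 2)
      (Submodule.finrank_orthogonal_span_singleton hx0) (δ := γ / 4) (by positivity)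
    refine ico_of h0 hs (by rw [Finset.card_compl, hc]; simp)
      (good := fun l' => ∃ m, Small (γ / 4) m ∧ (∀ y ∈ m, ⟪x, y⟫ = 0) ∧ l' = m.map L) ?_ ?_
      (hG.push (fun y : (ℝ ∙ x)ᗮ => L y) (fun m hm => ⟨m.map Subtype.val, ?_, ?_, by simp⟩)
        fun m hm y hy => hL y (hm y hy).1)
    · rintro _ ⟨m, k1, k2, rfl⟩
      refine ⟨hcl m k1, fun v hv => Finset.mem_compl.2 fun k => ?_⟩
      obtain ⟨y, hy, rfl⟩ := List.mem_map.1 hv
      obtain ⟨w, hw, k3⟩ := Finset.mem_image.1 k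
      obtain ⟨x', hx', rfl⟩ := List.mem_map.1 (List.mem_toFinset.1 hw)
      have := (near l hl x hx x' hx').inner h (k1 y hy).1 k3.symm
      rw [k2 y hy] at this
      simp at this
      linarith
    · rintro _ ⟨m, k1, k2, rfl⟩
      refine ⟨_, k1.neg, fun y hy' => ?_, hfl m k1⟩
      obtain ⟨y, hy, rfl⟩ := List.mem_map.1 hy'
      simp [k2 y hy]
    · intro y hy'
      obtain ⟨y, hy, rfl⟩ := List.mem_map.1 hy'
      refine ⟨(hm y hy).1, fun w hw' => ?_⟩
      obtain ⟨w, hw, rfl⟩ := List.mem_map.1 hw'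
      exact (hm y hy).2 w hw
    · intro y hy'
      obtain ⟨y, hy, rfl⟩ := List.mem_map.1 hy'
      exact Submodule.mem_orthogonal_singleton_iff_inner_right.1 y.2

end Vale.Agent.P052
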