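import Vale.Agent.P052.Chain

namespace Vale.Agent.P052

open Finset
open scoped RealInnerProductSpace

lemma Hm.mono {X : Type} {a : X → X} {good good' : List X → Prop} (hg : ∀ l, good l → good' l)
    {n : ℕ} {H : Co X → F2} (h : Hm a good n H) : Hm a good' n H := by
  have := h.push (b := a) (good' := good') id (fun l hl => by simpa using hg l hl)
    (fun _ _ _ _ => rfl)
  simpa using this

variable {E : Type} [NormedAddCommGroup E] [InnerProductSpace ℝ E]

/-- Lists of unit vectors at mutual distance at most `δ`. -/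
def Small (δ : ℝ) (l : List E) : Prop := ∀ x ∈ l, ‖x‖ = 1 ∧ ∀ y ∈ l, ‖x - y‖ ≤ δ

lemma Small.neg {δ : ℝ} {l : List E} (h : Small δ l) : Small δ (l.map fun x => -x) := by
  intro x hx'
  obtain ⟨x, hx, rfl⟩ := List.mem_map.1 hx'
  refine ⟨by simpa using (h x hx).1, fun y hy' => ?_⟩
  obtain ⟨y, hy, rfl⟩ := List.mem_map.1 hy'
  rw [← neg_sub', norm_neg]; exact (h x hx).2 y hy

lemma rot_norm {x e : E} (hx : ‖x‖ = 1) (he : ‖e‖ = 1) (h : ⟪e, x⟫ = 0) (t : ℝ) :
    ‖Real.cos t • x + Real.sin t • e‖ = 1 := by
  have : ‖Real.cos t • x + Real.sin t • e‖ ^ 2 = 1 := by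
    rw [norm_add_sq_real, inner_smul_left, inner_smul_right, real_inner_comm, h, norm_smul,
      norm_smul, hx, he]
    simp
  exact (pow_eq_one_iff_of_nonneg (norm_nonneg _) two_ne_zero).1 this

lemma rot_dist {x y e : E} (hy : ‖y‖ = 1) (he : ‖e‖ = 1) (s t : ℝ) :
    ‖(Real.cos s • x + Real.sin s • e) - (Real.cos t • y + Real.sin t • e)‖ ≤
      ‖x - y‖ + 2 * |s - t| := by
  have e1 : (Real.cos s • x + Real.sin s • e) - (Real.cos t • y + Real.sin t • e) =
      Real.cos s • (x - y) + (Real.cos s - Real.cos t) • y + (Real.sin s - Real.sin t) • e := by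
    simp only [smul_sub, sub_smul]; abel
  rw [e1]
  refine (norm_add₃_le).trans ?_
  rw [norm_smul, norm_smul, norm_smul, hy, he]
  have h1 := Real.abs_cos_sub_cos_le s t
  have h2 := Real.abs_sin_sub_sin_le s t
  have h3 : |Real.cos s| * ‖x - y‖ ≤ 1 * ‖x - y‖ := by gcongr; exact Real.abs_cos_le_one s
  simp only [Real.norm_eq_abs]
  linarith

theorem exists_hm (n : ℕ) (e : ℕ → E) (h1 : ∀ i ≤ n, ‖e i‖ = 1)
    (h2 : ∀ i ≤ n, ∀ j ≤ n, i ≠ j → ⟪e i, e j⟫ = 0) {δ : ℝ} (hδ : 0 < δ) :
    ∃ H, Hm (fun x : E => -x) (Small δ) n H := by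
  obtain ⟨N, hN⟩ := exists_nat_gt (n * Real.pi / δ)
  have hN0 : (0 : ℝ) < N := lt_of_le_of_lt (by positivity) hN
  set η := Real.pi / N with hη
  have hη0 : 0 < η := by positivity
  let good : ℕ → List E → Prop := fun j l => Small (j * η) l ∧
    ∀ x ∈ l, ∀ k ≤ n, j < k → ⟪e k, x⟫ = 0
  have key : ∀ j ≤ n, ∃ H, Hm (fun x : E => -x) (good j) j H := by
    intro j
    induction j with
    | zero =>
      intro _
      refine ⟨fun u => u [e 0], ⟨fun _ _ => rfl, fun u hu => hu _ rfl ⟨?_, ?_⟩⟩,
        fun u => by simp [cob]⟩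
      · intro x hx
        simp only [List.mem_singleton] at hx
        simp [hx, h1]
      · intro x hx k hk h0
        simp only [List.mem_singleton] at hx
        rw [hx]; exact h2 k hk 0 (by omega) (by omega)
    | succ j ih =>
      intro hj
      obtain ⟨H, hH⟩ := ih (by omega)
      have hs := hH.cyc_supp (fun l hl => ⟨hl.1.neg, fun x hx' k k1 k2 => by
        obtain ⟨x, hx, rfl⟩ := List.mem_map.1 hx'
        simp [hl.2 x hx k k1 k2]⟩)
      have hc := hH.cyc_cob (fun x => neg_neg x)
      let g : ℕ → E → E := fun k x =>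
        Real.cos (k * (η / 2)) • x + Real.sin (k * (η / 2)) • e (j + 1)
      have g0 : g 0 = id := by funext x; simp [g]
      have gN : g N = fun _ => e (j + 1) := by
        funext x
        have : (N : ℝ) * (η / 2) = Real.pi / 2 := by rw [hη]; field_simp
        simp [g, this]
      have hmono : ∀ l, good j l → good (j + 1) l := fun l hl =>
        ⟨fun x hx => ⟨(hl.1 x hx).1, fun y hy => ((hl.1 x hx).2 y hy).trans (by
          push_cast; nlinarith)⟩, fun x hx k k1 k2 => hl.2 x hx k k1 (by omega)⟩
      refine ⟨fun u => ∑ k ∈ range N, cyc (fun x => -x) H (prism (g k) (g (k + 1)) u) +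
        cyc (fun x => -x) H (fun l => u (e (j + 1) :: l.map (g N))), ⟨?_, ?_⟩, H,
        hH.mono hmono, ?_⟩
      · intro u v
        have : ∀ k, prism (g k) (g (k + 1)) (fun l => u l + v l) =
          fun l => prism (g k) (g (k + 1)) u l + prism (g k) (g (k + 1)) v l :=
          fun k => funext (prism_add _ _ _ _)
        simp only [this, hs.add, Finset.sum_add_distrib]
        ring
      · intro u hu
        rw [Finset.sum_eq_zero, hs.zero, add_zero]
        · intro l k1 k2
          refine hu _ (by simp [k1]) ⟨?_, ?_⟩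
          · have : ∀ x ∈ e (j + 1) :: l.map (g N), x = e (j + 1) := by
              intro x hx
              simp only [gN, List.mem_cons, List.mem_map] at hx
              rcases hx with rfl | ⟨_, _, rfl⟩ <;> rfl
            intro x hx
            refine ⟨by rw [this x hx]; exact h1 _ hj, fun y hy => ?_⟩
            rw [this x hx, this y hy, sub_self, norm_zero]; positivity
          · intro x hx k k3 k4
            simp only [gN, List.mem_cons, List.mem_map] at hx
            rcases hx with rfl | ⟨_, _, rfl⟩ <;> exact h2 k k3 _ hj (by omega)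
        · intro k _
          refine hs.zero _ fun l k1 k2 => prism_zero _ _ _ _ fun m k3 k4 => hu m (by omega) ?_
          have k5 : ∀ y ∈ m, ∃ x ∈ l, ∃ i : ℕ, (i = k ∨ i = k + 1) ∧ y = g i x := by
            intro y hy
            obtain ⟨x, hx, rfl | rfl⟩ := k4 y hy
            exacts [⟨x, hx, k, Or.inl rfl, rfl⟩, ⟨x, hx, k + 1, Or.inr rfl, rfl⟩]
          constructor
          · intro y hy
            obtain ⟨x, hx, i, hi, rfl⟩ := k5 y hy
            refine ⟨rot_norm (k2.1 x hx).1 (h1 _ hj) (k2.2 x hx _ hj (by omega)) _, ?_⟩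
            intro y' hy'
            obtain ⟨x', hx', i', hi', rfl⟩ := k5 y' hy'
            refine (rot_dist (k2.1 x' hx').1 (h1 _ hj) _ _).trans ?_
            have a1 := (k2.1 x hx).2 x' hx'
            have a2 : |(i : ℝ) * (η / 2) - i' * (η / 2)| ≤ η / 2 := by
              rw [abs_le]
              rcases hi with rfl | rfl <;> rcases hi' with h | h <;> rw [h] <;> push_cast <;>
                constructor <;> nlinarith
            push_cast; linarith
          · intro y hy k' k6 k7
            obtain ⟨x, hx, i, hi, rfl⟩ := k5 y hy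
            simp [g, inner_add_right, inner_smul_right, k2.2 x hx k' k6 (by omega),
              h2 k' k6 _ hj (by omega)]
      · intro u
        have a1 : ∀ k, cyc (fun x => -x) H (prism (g k) (g (k + 1)) (cob u)) =
            cyc (fun x => -x) H (fun l => u (l.map (g (k + 1)))) -
              cyc (fun x => -x) H (fun l => u (l.map (g k))) := by
          intro k
          rw [show prism (g k) (g (k + 1)) (cob u) = _ from funext (prism_cob _ _ _), hs.add,
            hs.add, hc]
          have := F2_add_self (cyc (fun x => -x) H (fun l => u (l.map (g k))))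
          linear_combination this
        have a2 : cyc (fun x => -x) H (fun l => cob u (e (j + 1) :: l.map (g N))) =
            cyc (fun x => -x) H (fun l => u (l.map (g N))) := by
          simp only [cob, cob_map]
          rw [hs.add, hc, add_zero]
        simp only [a1, a2]
        rw [Finset.sum_range_sub (fun k => cyc (fun x => -x) H (fun l => u (l.map (g k)))), g0]
        have b1 := F2_add_self (cyc (fun x => -x) H (fun l => u (l.map (g N))))
        have b2 := F2_add_self (cyc (fun x => -x) H u)
        simp only [List.map_id]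
        change _ = cyc (fun x => -x) H u
        linear_combination b1 - b2
  obtain ⟨H, hH⟩ := key n le_rfl
  refine ⟨H, hH.mono fun l hl x hx => ⟨(hl.1 x hx).1, fun y hy => ((hl.1 x hx).2 y hy).trans ?_⟩⟩
  rw [div_lt_iff₀ hδ] at hN
  rw [hη, ← mul_div_assoc, div_le_iff₀ hN0]
  linarith

theorem exists_hm' [FiniteDimensional ℝ E] {n : ℕ} (hn : Module.finrank ℝ E = n + 1) {δ : ℝ}
    (hδ : 0 < δ) : ∃ H, Hm (fun x : E => -x) (Small δ) n H := by
  let b := stdOrthonormalBasis ℝ E
  refine exists_hm n (fun i => if h : i < Module.finrank ℝ E then b ⟨i, h⟩ else 0) ?_ ?_ hδ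
  · intro i hi
    rw [dif_pos (by omega)]
    exact b.orthonormal.1 _
  · intro i hi j hj hij
    rw [dif_pos (by omega), dif_pos (by omega)]
    exact b.orthonormal.2 (fun h => hij (Fin.mk.inj h))

end Vale.Agent.P052
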